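import Mathlib

/-!
Definitions for problem P307: abstract elementary classes of modules.
-/

namespace Vale.Agent.P307

open Cardinal

universe u

/-- An abstract elementary class of `R`-modules (in the vocabulary of `R`-modules). `Mem M` says
that `M` lies in the class; `Le N S`, for a submodule `S` of `N`, says `S ≤_K N`. -/
structure ModAEC (R : Type u) [Ring R] where
  /-- membership in the class. -/
  Mem : ∀ (M : Type u) [AddCommGroup M] [Module R M], Prop
  /-- the relation `S ≤_K N`, for submodules `S` of `N`. -/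
  Le : ∀ (N : Type u) [AddCommGroup N] [Module R N], Submodule R N → Prop
  /-- the relation is between members of the class. -/
  mem_of_le : ∀ (N : Type u) [AddCommGroup N] [Module R N] (S : Submodule R N),
    Le N S → Mem S ∧ Mem N
  /-- closure under isomorphism of the class. -/
  mem_iso : ∀ (M N : Type u) [AddCommGroup M] [Module R M] [AddCommGroup N] [Module R N],
    (M ≃ₗ[R] N) → Mem M → Mem N
  /-- closure under isomorphism of the relation. -/
  le_iso : ∀ (M N : Type u) [AddCommGroup M] [Module R M] [AddCommGroup N] [Module R N]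
    (e : M ≃ₗ[R] N) (S : Submodule R M), Le M S → Le N (S.map (e : M →ₗ[R] N))
  /-- reflexivity. -/
  le_refl : ∀ (N : Type u) [AddCommGroup N] [Module R N], Mem N → Le N ⊤
  /-- transitivity. -/
  le_trans : ∀ (N : Type u) [AddCommGroup N] [Module R N] (S : Submodule R N)
    (T : Submodule R S), Le N S → Le S T → Le N (T.map S.subtype)
  /-- coherence. -/
  coherence : ∀ (N : Type u) [AddCommGroup N] [Module R N] (S T : Submodule R N), S ≤ T →
    Le N S → Le N T → Le T (S.comap T.subtype)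
  /-- the union of a `≤_K`-increasing chain, indexed by a nonempty well-ordered set, lies in the
  class and is `≥_K` every member of the chain. -/
  chain_mem : ∀ (U : Type u) [AddCommGroup U] [Module R U] (ι : Type u) [LinearOrder ι]
    [WellFoundedLT ι] [Nonempty ι] (S : ι → Submodule R U), Monotone S → (∀ x, ∃ i, x ∈ S i) →
    (∀ i j, i ≤ j → Le (S j) ((S i).comap (S j).subtype)) → Mem U ∧ ∀ i, Le U (S i)
  /-- the union of a chain of `≤_K`-submodules of `N` is a `≤_K`-submodule of `N`. -/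
  chain_le : ∀ (N : Type u) [AddCommGroup N] [Module R N] (ι : Type u) [LinearOrder ι]
    [WellFoundedLT ι] [Nonempty ι] (S : ι → Submodule R N), Monotone S →
    (∀ i j, i ≤ j → Le (S j) ((S i).comap (S j).subtype)) → (∀ i, Le N (S i)) →
    ∀ T : Submodule R N, (∀ x, x ∈ T ↔ ∃ i, x ∈ S i) → Le N T
  /-- the Löwenheim-Skolem axiom. -/
  exists_ls : ∃ ℓ : Cardinal.{u}, ℵ₀ ≤ ℓ ∧ #R ≤ ℓ ∧
    ∀ (M : Type u) [AddCommGroup M] [Module R M], Mem M → ∀ A : Set M,
      ∃ S : Submodule R M, A ⊆ S ∧ Le M S ∧ #S ≤ #A + ℓ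

/-- `ℓ` is a Löwenheim-Skolem cardinal of `K`. -/
def ModAEC.IsLS {R : Type u} [Ring R] (K : ModAEC R) (ℓ : Cardinal.{u}) : Prop :=
  ℵ₀ ≤ ℓ ∧ #R ≤ ℓ ∧ ∀ (M : Type u) [AddCommGroup M] [Module R M], K.Mem M → ∀ A : Set M,
    ∃ S : Submodule R M, A ⊆ S ∧ K.Le M S ∧ #S ≤ #A + ℓ

/-- `LS(K)`, the least Löwenheim-Skolem cardinal. -/
noncomputable def ModAEC.LS {R : Type u} [Ring R] (K : ModAEC R) : Cardinal.{u} :=
  sInf {ℓ | K.IsLS ℓ}

/-- `K` is categorical in `κ`. -/
def ModAEC.Categorical {R : Type u} [Ring R] (K : ModAEC R) (κ : Cardinal.{u}) : Prop :=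
  (∃ (M : Type u) (_ : AddCommGroup M) (_ : Module R M), K.Mem M ∧ #M = κ) ∧
  ∀ (M N : Type u) [AddCommGroup M] [Module R M] [AddCommGroup N] [Module R N],
    K.Mem M → K.Mem N → #M = κ → #N = κ → Nonempty (M ≃ₗ[R] N)

/-- the module `M` is a direct sum of modules of cardinality at most `ρ`. -/
def SumOfSmall (R : Type u) [Ring R] (ρ : Cardinal.{u}) (M : Type u) [AddCommGroup M]
    [Module R M] : Prop :=
  ∃ (X : Type u) (E : X → Type u) (_ : ∀ x, AddCommGroup (E x)) (_ : ∀ x, Module R (E x)),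
    (∀ x, #(E x) ≤ ρ) ∧ Nonempty (M ≃ₗ[R] DirectSum X E)

/-- the direct sum of a family, as the functions of finite support. -/
def DS (R : Type u) [Ring R] {X : Type u} (E : X → Type u) [∀ x, AddCommGroup (E x)]
    [∀ x, Module R (E x)] : Submodule R (∀ x, E x) where
  carrier := {f | {x | f x ≠ 0}.Finite}
  add_mem' := by
    intro f g hf hg
    refine (Set.Finite.union hf hg).subset ?_
    intro x hx
    by_contra hcon
    simp only [Set.mem_union, Set.mem_ofPred_eq, not_or, not_not] at hcon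
    exact hx (by simp [hcon.1, hcon.2])
  zero_mem' := by simp
  smul_mem' := by
    intro r f hf
    refine Set.Finite.subset hf ?_
    intro x hx h0
    exact hx (by simp [h0])

/-- the functions of finite support vanishing outside `A`. -/
def cylM (R : Type u) [Ring R] {X : Type u} (E : X → Type u) [∀ x, AddCommGroup (E x)]
    [∀ x, Module R (E x)] (A : Set X) : Submodule R (DS R E) where
  carrier := {f | ∀ x, x ∉ A → f.1 x = 0}
  add_mem' := by
    intro f g hf hg x hx
    show f.1 x + g.1 x = 0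
    rw [hf x hx, hg x hx, add_zero]
  zero_mem' := by intro x _; rfl
  smul_mem' := by
    intro r f hf x hx
    show r • f.1 x = 0
    rw [hf x hx, smul_zero]

/-- closing off under an isomorphism of direct sums of small modules. -/
def StmtClose : Prop :=
  ∀ (R : Type u) [Ring R] (χ : Cardinal.{u}), ℵ₀ ≤ χ → ∀ (X Y : Type u) (E : X → Type u)
    (F : Y → Type u) [∀ x, AddCommGroup (E x)] [∀ x, Module R (E x)] [∀ y, AddCommGroup (F y)]
    [∀ y, Module R (F y)], (∀ x, #(E x) ≤ χ) → (∀ y, #(F y) ≤ χ) →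
    ∀ (f : DS R E ≃ₗ[R] DS R F) (A0 : Set X) (B0 : Set Y), #A0 ≤ χ → #B0 ≤ χ →
    ∃ (A : Set X) (B : Set Y), A0 ⊆ A ∧ B0 ⊆ B ∧ #A ≤ χ ∧ #B ≤ χ ∧
      ∀ v, v ∈ cylM R E A ↔ f v ∈ cylM R F B

/-- an isomorphism matching the two parts induces isomorphisms of the parts and of the
complementary parts. -/
def StmtCompl : Prop :=
  ∀ (R : Type u) [Ring R] (X Y : Type u) (E : X → Type u)
    (F : Y → Type u) [∀ x, AddCommGroup (E x)] [∀ x, Module R (E x)] [∀ y, AddCommGroup (F y)]
    [∀ y, Module R (F y)] (f : DS R E ≃ₗ[R] DS R F) (A : Set X) (B : Set Y),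
    (∀ v, v ∈ cylM R E A ↔ f v ∈ cylM R F B) →
    Nonempty (DS R (fun a : A => E a) ≃ₗ[R] DS R (fun b : B => F b)) ∧
    Nonempty (DS R (fun a : (Aᶜ : Set X) => E a) ≃ₗ[R] DS R (fun b : (Bᶜ : Set Y) => F b))

/-- sums of isomorphic direct sums are isomorphic. -/
def StmtSum : Prop :=
  ∀ (R : Type u) [Ring R] (I : Type u) (X Y : I → Type u) (E : ∀ i, X i → Type u)
    (F : ∀ i, Y i → Type u) [∀ i x, AddCommGroup (E i x)] [∀ i x, Module R (E i x)]
    [∀ i y, AddCommGroup (F i y)] [∀ i y, Module R (F i y)],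
    (∀ i, Nonempty (DS R (E i) ≃ₗ[R] DS R (F i))) →
    Nonempty (DS R (fun p : (Σ i, X i) => E p.1 p.2) ≃ₗ[R]
      DS R (fun p : (Σ i, Y i) => F p.1 p.2))

/-- Kaplansky: over a ring of size at most `ρ`, a projective module is a direct sum of modules of
size at most `ρ`. -/
def StmtKap : Prop :=
  ∀ (R : Type u) [Ring R] (ρ : Cardinal.{u}), ℵ₀ ≤ ρ → #R ≤ ρ → ∀ (M : Type u) [AddCommGroup M]
    [Module R M], Module.Projective R M → SumOfSmall R ρ M

/-- over a semisimple ring of size at most `ρ` every module is a direct sum of modules of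
size at most `ρ`. -/
def StmtSemi : Prop :=
  ∀ (R : Type u) [Ring R] (ρ : Cardinal.{u}), ℵ₀ ≤ ρ → #R ≤ ρ → ∀ (M : Type u) [AddCommGroup M]
    [Module R M], IsSemisimpleModule R M → SumOfSmall R ρ M

end Vale.Agent.P307
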