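import Mathlib
import Vale.Agent.P307.Mods.Defs

/-!
Direct sums as functions of finite support: reindexing, restriction, cardinality.
-/

namespace Vale.Agent.P307

open Cardinal Set

universe u

section

variable {R : Type u} [Ring R] {X Y : Type u} {E : X → Type u} {F : Y → Type u}
  [∀ x, AddCommGroup (E x)] [∀ x, Module R (E x)] [∀ y, AddCommGroup (F y)] [∀ y, Module R (F y)]

lemma mem_cylM {A : Set X} {f : DS R E} : f ∈ cylM R E A ↔ ∀ x, x ∉ A → f.1 x = 0 := Iff.rfl

lemma DS_ext {f g : DS R E} (h : ∀ x, f.1 x = g.1 x) : f = g := Subtype.ext (funext h)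

/-- pulling back along a bijection. -/
def pull (e : X ≃ Y) : DS R F →ₗ[R] DS R (fun x => F (e x)) where
  toFun g := ⟨fun x => g.1 (e x), Set.Finite.preimage (e.injective.injOn) g.2⟩
  map_add' := fun f g => rfl
  map_smul' := fun r f => rfl

lemma pull_apply (e : X ≃ Y) (g : DS R F) (x : X) : (pull e g).1 x = g.1 (e x) := rfl

lemma pull_bijective (e : X ≃ Y) : Function.Bijective (pull (R := R) (F := F) e) := by
  constructor
  · intro f g h
    apply DS_ext
    intro y
    obtain ⟨x, rfl⟩ := e.surjective y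
    rw [← pull_apply, h, pull_apply]
  · intro f
    refine ⟨⟨Equiv.piCongrLeft F e f.1, ?_⟩, ?_⟩
    · have h1 : {y | Equiv.piCongrLeft F e f.1 y ≠ 0} ⊆ e '' {x | f.1 x ≠ 0} := by
        intro y hy
        obtain ⟨x, rfl⟩ := e.surjective y
        refine ⟨x, ?_, rfl⟩
        intro h0
        apply hy
        rw [Equiv.piCongrLeft_apply_apply, h0]
      exact Set.Finite.subset (Set.Finite.image _ f.2) h1
    · apply DS_ext
      intro x
      rw [pull_apply]
      exact Equiv.piCongrLeft_apply_apply F e f.1 x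

/-- reindexing along a bijection. -/
noncomputable def reindexM (e : X ≃ Y) : DS R (fun x => F (e x)) ≃ₗ[R] DS R F :=
  (LinearEquiv.ofBijective (pull e) (pull_bijective e)).symm

lemma map_cylM_reindex (e : X ≃ Y) (A : Set X) :
    (cylM R (fun x => F (e x)) A).map (reindexM (R := R) (F := F) e : _ →ₗ[R] _) =
      cylM R F (e '' A) := by
  rw [Submodule.map_equiv_eq_comap_symm]
  ext g
  rw [Submodule.mem_comap, mem_cylM, mem_cylM]
  have h1 : ∀ x, (((reindexM (R := R) (F := F) e).symm :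
      DS R F →ₗ[R] DS R (fun x => F (e x))) g).1 x = g.1 (e x) :=
    fun x => rfl
  constructor
  · intro h y hy
    obtain ⟨x, rfl⟩ := e.surjective y
    rw [← h1]
    apply h
    intro hx
    exact hy ⟨x, hx, rfl⟩
  · intro h x hx
    rw [h1]
    apply h
    rintro ⟨x', hx', h2⟩
    rw [e.injective h2] at hx'
    exact hx hx'

/-- restriction to a subset. -/
def restr (R : Type u) [Ring R] {X : Type u} (E : X → Type u) [∀ x, AddCommGroup (E x)]
    [∀ x, Module R (E x)] (A : Set X) : DS R E →ₗ[R] DS R (fun a : A => E a) where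
  toFun g := ⟨fun a => g.1 a, Set.Finite.preimage (Subtype.val_injective.injOn) g.2⟩
  map_add' := fun f g => rfl
  map_smul' := fun r f => rfl

lemma restr_surj (A : Set X) (g : DS R (fun a : A => E a)) :
    ∃ f : DS R E, f ∈ cylM R E A ∧ restr R E A f = g := by
  classical
  refine ⟨⟨fun x => if h : x ∈ A then g.1 ⟨x, h⟩ else 0, ?_⟩, ?_, ?_⟩
  · refine Set.Finite.subset (Set.Finite.image (fun a : A => (a : X)) g.2) ?_
    intro x hx
    by_cases h : x ∈ A
    · refine ⟨⟨x, h⟩, ?_, rfl⟩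
      intro h0
      apply hx
      simp only [dif_pos h]
      exact h0
    · exact absurd (by simp only [dif_neg h]) hx
  · intro x hx
    show (if h : x ∈ A then g.1 ⟨x, h⟩ else (0 : E x)) = 0
    rw [dif_neg hx]
  · apply DS_ext
    intro a
    show (if h : (a : X) ∈ A then g.1 ⟨a, h⟩ else (0 : E a)) = g.1 a
    rw [dif_pos a.2]

/-- the part over `A` is the direct sum over `A`. -/
noncomputable def cylIsoM (R : Type u) [Ring R] {X : Type u} (E : X → Type u)
    [∀ x, AddCommGroup (E x)] [∀ x, Module R (E x)] (A : Set X) :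
    cylM R E A ≃ₗ[R] DS R (fun a : A => E a) :=
  LinearEquiv.ofBijective ((restr R E A).comp (cylM R E A).subtype) (by
    constructor
    · intro f g h
      apply Subtype.ext
      apply DS_ext
      intro x
      by_cases hx : x ∈ A
      · exact congrArg (fun k : DS R (fun a : A => E a) => k.1 ⟨x, hx⟩) h
      · rw [f.2 x hx, g.2 x hx]
    · intro g
      obtain ⟨f, hf, h⟩ := restr_surj A g
      exact ⟨⟨f, hf⟩, h⟩)

lemma cylIsoM_apply (A : Set X) (f : cylM R E A) (a : A) :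
    (cylIsoM R E A f).1 a = f.1.1 a := rfl

lemma map_comap_cylM (A B : Set X) :
    ((cylM R E A).comap (cylM R E B).subtype).map (cylIsoM R E B : _ →ₗ[R] _) =
      cylM R (fun b : B => E b) {b | (b : X) ∈ A} := by
  ext g
  rw [Submodule.mem_map]
  constructor
  · rintro ⟨f, hf, rfl⟩
    intro b hb
    exact hf b hb
  · intro h
    obtain ⟨f, rfl⟩ := (cylIsoM R E B).surjective g
    refine ⟨f, ?_, rfl⟩
    intro x hx
    by_cases hxB : x ∈ B
    · exact h ⟨x, hxB⟩ hx
    · exact f.2 x hxB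

lemma map_cylM_symm (A B : Set X) :
    (cylM R (fun b : B => E b) {b | (b : X) ∈ A}).map ((cylIsoM R E B).symm : _ →ₗ[R] _) =
      (cylM R E A).comap (cylM R E B).subtype := by
  rw [← map_comap_cylM, ← Submodule.map_comp]
  ext f
  simp

lemma map_comap_subM {A B : Set X} (h : A ⊆ B) :
    ((cylM R E A).comap (cylM R E B).subtype).map (cylM R E B).subtype = cylM R E A := by
  ext f
  rw [Submodule.mem_map]
  constructor
  · rintro ⟨g, hg, rfl⟩
    exact hg
  · intro hf
    exact ⟨⟨f, fun x hx => hf x (fun h2 => hx (h h2))⟩, hf, rfl⟩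

lemma cylM_mono {A B : Set X} (h : A ⊆ B) : cylM R E A ≤ cylM R E B :=
  fun _ hf x hx => hf x (fun h2 => hx (h h2))

lemma exists_cylM {ι : Type u} [LinearOrder ι] [Nonempty ι] {A : ι → Set X} (hA : Monotone A)
    (f : DS R E) (hf : ∀ x, f.1 x ≠ 0 → ∃ i, x ∈ A i) : ∃ i, f ∈ cylM R E (A i) := by
  classical
  have key : ∀ s : Set X, s.Finite → (∀ x ∈ s, ∃ i, x ∈ A i) → ∃ i, s ⊆ A i := by
    intro s hs
    induction s, hs using Set.Finite.induction_on with
    | empty =>
      intro _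
      exact ⟨Classical.arbitrary ι, Set.empty_subset _⟩
    | @insert a s _ _ ih =>
      intro h
      obtain ⟨i, hi⟩ := ih (fun x hx => h x (Set.mem_insert_of_mem _ hx))
      obtain ⟨j, hj⟩ := h a (Set.mem_insert _ _)
      refine ⟨max i j, ?_⟩
      rintro x (rfl | hx)
      · exact hA (le_max_right i j) hj
      · exact hA (le_max_left i j) (hi hx)
  obtain ⟨i, hi⟩ := key _ f.2 hf
  refine ⟨i, fun x hx => ?_⟩
  by_contra h0
  exact hx (hi h0)

lemma card_DS_le {χ : Cardinal.{u}} (hχ : ℵ₀ ≤ χ) (hX : #X ≤ χ) (hE : ∀ x, #(E x) ≤ χ) :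
    #(DS R E) ≤ χ := by
  classical
  have h1 : #(Σ x, E x) ≤ χ := by
    rw [Cardinal.mk_sigma]
    refine (Cardinal.sum_le_sum _ (fun _ => χ) hE).trans ?_
    rw [Cardinal.sum_const']
    exact (mul_le_mul' hX le_rfl).trans (Cardinal.mul_eq_self hχ).le
  have h2 : #(Σ x, E x) ≤ #χ.out := by rw [Cardinal.mk_out]; exact h1
  obtain ⟨g⟩ := h2
  have : Infinite χ.out := by
    rw [Cardinal.infinite_iff, Cardinal.mk_out]; exact hχ
  have h3 : #(Finset χ.out) = χ := by
    rw [Cardinal.mk_finset_of_infinite, Cardinal.mk_out]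
  rw [← h3]
  refine Cardinal.mk_le_of_injective
    (f := fun f : DS R E => (f.2.toFinset.image (fun x => g ⟨x, f.1 x⟩))) ?_
  intro f f' h
  have key : ∀ f f' : DS R E, (f.2.toFinset.image (fun x => g ⟨x, f.1 x⟩)) =
      (f'.2.toFinset.image (fun x => g ⟨x, f'.1 x⟩)) → ∀ x, f.1 x ≠ 0 → f'.1 x = f.1 x := by
    intro f f' h x hx
    have h4 : g ⟨x, f.1 x⟩ ∈ (f.2.toFinset.image (fun x => g ⟨x, f.1 x⟩)) :=
      Finset.mem_image_of_mem _ (f.2.mem_toFinset.2 hx)
    rw [h, Finset.mem_image] at h4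
    obtain ⟨y, _, h5⟩ := h4
    have h6 := g.injective h5
    rw [Sigma.mk.injEq] at h6
    obtain ⟨rfl, h7⟩ := h6
    exact eq_of_heq h7
  apply DS_ext
  intro x
  by_cases hx : f.1 x = 0
  · by_cases hx' : f'.1 x = 0
    · rw [hx, hx']
    · exact key f' f h.symm x hx'
  · exact (key f f' h x hx).symm

lemma card_cylM_le {χ : Cardinal.{u}} (hχ : ℵ₀ ≤ χ) (hE : ∀ x, #(E x) ≤ χ) (A : Set X)
    (hA : #A ≤ χ) : #(cylM R E A) ≤ χ := by
  rw [Cardinal.mk_congr (cylIsoM R E A).toEquiv]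
  exact card_DS_le hχ hA (fun a => hE a)

lemma card_supp_le {χ : Cardinal.{u}} (hχ : ℵ₀ ≤ χ) (S : Set (DS R E)) (hS : #S ≤ χ) :
    #({x | ∃ f ∈ S, f.1 x ≠ 0} : Set X) ≤ χ := by
  have h1 : {x | ∃ f ∈ S, f.1 x ≠ 0} = ⋃ f : S, {x | f.1.1 x ≠ 0} := by
    ext x
    simp only [Set.mem_ofPred_eq, Set.mem_iUnion]
    constructor
    · rintro ⟨f, hf, h⟩; exact ⟨⟨f, hf⟩, h⟩
    · rintro ⟨f, h⟩; exact ⟨f.1, f.2, h⟩
  rw [h1]
  refine Cardinal.mk_iUnion_le_sum_mk.trans ?_
  refine (Cardinal.sum_le_sum _ (fun _ => χ) ?_).trans ?_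
  · intro f
    exact (Cardinal.lt_aleph0_iff_set_finite.2 f.1.2).le.trans hχ
  · rw [Cardinal.sum_const']
    exact (mul_le_mul' hS le_rfl).trans (Cardinal.mul_eq_self hχ).le

end

end Vale.Agent.P307
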