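import Vale.Agent.P307.Mods.Defs2

/-!
P307, module BDD: over a principal ideal domain, a module of bounded torsion is a direct sum of
cyclic modules (Pruefer, Baer). Proof by a basis of the socle adapted to the heights.
-/

namespace Vale.Agent.P307

open Cardinal

universe u

namespace Bdd

variable {R : Type u} [CommRing R] [IsDomain R] [IsPrincipalIdealRing R]
  {M : Type u} [AddCommGroup M] [Module R M]

set_option linter.unusedSectionVars false

open Classical in
/-- the height, capped at `k`. -/
noncomputable def ht (p : R) (k : ℕ) (x : M) : ℕ :=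
  Nat.findGreatest (fun j => ∃ y : M, p ^ j • y = x) k

/-- the height is at most `k`. -/
theorem ht_le (p : R) (k : ℕ) (x : M) : ht p k x ≤ k := by
  classical
  unfold ht
  exact Nat.findGreatest_le _

theorem ht_spec (p : R) (k : ℕ) (x : M) : ∃ y : M, p ^ (ht p k x) • y = x := by
  classical
  exact Nat.findGreatest_spec (P := fun j => ∃ y : M, p ^ j • y = x) (Nat.zero_le k)
    ⟨x, by simp⟩

theorem le_ht (p : R) (k : ℕ) (x : M) (j : ℕ) (hj : j ≤ k) (h : ∃ y : M, p ^ j • y = x) :
    j ≤ ht p k x := by
  classical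
  exact Nat.le_findGreatest hj h

/-- if `p r b = 0`, `p ^ (h+1) b = 0` and `p ^ h b ≠ 0` then `p ^ h` divides `r`. -/
theorem pow_dvd (p : R) (hp : Prime p) (h : ℕ) (b : M) (r : R)
    (h1 : p ^ (h + 1) • b = 0) (h0 : p ^ h • b ≠ 0) (hr : (p * r) • b = 0) : p ^ h ∣ r := by
  have key : ∀ j, j ≤ h → p ^ j ∣ r := by
    intro j
    induction j with
    | zero => intro _; simp
    | succ j ih =>
      intro hj
      obtain ⟨r', hr'⟩ := ih (by omega)
      by_cases hd : p ∣ r'
      · obtain ⟨r'', hr''⟩ := hd
        exact ⟨r'', by rw [hr', hr'', pow_succ, mul_assoc]⟩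
      · exfalso
        have hc : IsCoprime (p ^ (h + 1)) r' :=
          ((Prime.coprime_iff_not_dvd hp).2 hd).pow_left
        obtain ⟨u, v, huv⟩ := hc
        apply h0
        have e1 : p ^ h = (p ^ h * u) * p ^ (h + 1) + (v * p ^ (h - j - 1)) * (p * r) := by
          have e2 : p ^ h = p ^ (h - j - 1) * (p * p ^ j) := by
            rw [← pow_succ', ← pow_add]
            congr 1
            omega
          calc p ^ h = p ^ h * (u * p ^ (h + 1) + v * r') := by rw [huv, mul_one]
            _ = (p ^ h * u) * p ^ (h + 1) + v * (p ^ h * r') := by ring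
            _ = (p ^ h * u) * p ^ (h + 1) + v * (p ^ (h - j - 1) * (p * p ^ j) * r') := by
                rw [← e2]
            _ = (p ^ h * u) * p ^ (h + 1) + (v * p ^ (h - j - 1)) * (p * r) := by
                rw [hr']; ring
        rw [e1, add_smul, mul_smul (p ^ h * u), h1, mul_smul (v * p ^ (h - j - 1)), hr, smul_zero,
          smul_zero, add_zero]
  exact key h le_rfl

/-- the primary case. -/
theorem primary (p : R) (hp : Prime p) (k : ℕ) (hk : ∀ m : M, p ^ k • m = 0)
    (ρ : Cardinal.{u}) (hR : #R ≤ ρ) : SumOfSmall R ρ M := by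
  classical
  let _ : LinearOrder M := IsWellOrder.linearOrder (WellOrderingRel (α := M))
  have _ : WellFoundedLT M := ⟨(WellOrderingRel.isWellOrder (α := M)).wf⟩
  let key : M → ℕ ×ₗ M := fun x => toLex (k - ht p k x, x)
  have hkey : ∀ s t : M, key t < key s → ht p k s ≤ ht p k t := by
    intro s t h
    have h1 := (Prod.Lex.toLex_lt_toLex).1 h
    have h2 := ht_le p k s
    have h3 := ht_le p k t
    rcases h1 with h1 | h1
    · simp only at h1; omega
    · have := h1.1
      simp only at this; omega
  let L : M → Set M := fun s => {t | p • t = 0 ∧ key t < key s}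
  let B : Set M := {s | p • s = 0 ∧ s ∉ Submodule.span R (L s)}
  -- the adapted basis spans
  have hA : ∀ x : M, p • x = 0 →
      x ∈ Submodule.span R {s | s ∈ B ∧ ht p k x ≤ ht p k s} := by
    intro x
    have wf : WellFounded (fun a b : M => key a < key b) :=
      InvImage.wf key (wellFounded_lt (α := ℕ ×ₗ M))
    induction x using wf.induction with
    | _ x ih =>
      intro hx
      by_cases hxB : x ∈ B
      · exact Submodule.subset_span ⟨hxB, le_rfl⟩
      · have h1 : x ∈ Submodule.span R (L x) := by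
          by_contra hcon
          exact hxB ⟨hx, hcon⟩
        refine (Submodule.span_le.2 ?_) h1
        intro t ht'
        have h2 := ih t ht'.2 ht'.1
        refine Submodule.span_mono ?_ h2
        intro s hs
        exact ⟨hs.1, (hkey x t ht'.2).trans hs.2⟩
  choose b hb using fun s : B => ht_spec p k (s : M)
  have hB0 : ∀ s : B, (s : M) ≠ 0 := by
    intro s h
    exact s.2.2 (by rw [h]; exact Submodule.zero_mem _)
  let D : B → Submodule R M := fun s => Submodule.span R {b s}
  -- spanning
  have hlift : ∀ i : ℕ, ∀ z ∈ Submodule.span R {s | s ∈ B ∧ i ≤ ht p k s},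
      ∃ w ∈ ⨆ s, D s, p ^ i • w = z := by
    intro i z hz
    induction hz using Submodule.span_induction with
    | mem s hs =>
      refine ⟨p ^ (ht p k s - i) • b ⟨s, hs.1⟩, ?_, ?_⟩
      · refine Submodule.smul_mem _ _ (Submodule.mem_iSup_of_mem ⟨s, hs.1⟩ ?_)
        exact Submodule.mem_span_singleton_self _
      · rw [smul_smul, ← pow_add, Nat.add_sub_cancel' hs.2]
        exact hb ⟨s, hs.1⟩
    | zero => exact ⟨0, Submodule.zero_mem _, smul_zero _⟩
    | add x y _ _ hx hy =>
      obtain ⟨w1, h1, e1⟩ := hx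
      obtain ⟨w2, h2, e2⟩ := hy
      exact ⟨w1 + w2, Submodule.add_mem _ h1 h2, by rw [smul_add, e1, e2]⟩
    | smul a x _ hx =>
      obtain ⟨w1, h1, e1⟩ := hx
      exact ⟨a • w1, Submodule.smul_mem _ _ h1, by rw [smul_comm, e1]⟩
  have hspan : ∀ i : ℕ, ∀ m : M, p ^ i • m = 0 → m ∈ ⨆ s, D s := by
    intro i
    induction i with
    | zero =>
      intro m hm
      rw [pow_zero, one_smul] at hm
      rw [hm]; exact Submodule.zero_mem _
    | succ i ih =>
      intro m hm
      by_cases hik : k < i
      · refine ih m ?_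
        have : p ^ i = p ^ (i - k) * p ^ k := by rw [← pow_add]; congr 1; omega
        rw [this, mul_smul, hk, smul_zero]
      · have hx : p • (p ^ i • m) = 0 := by rw [smul_smul, ← pow_succ', hm]
        have h1 := hA _ hx
        have h2 : i ≤ ht p k (p ^ i • m) := le_ht p k (p ^ i • m) i (by omega) ⟨m, rfl⟩
        have h3 : p ^ i • m ∈ Submodule.span R {s | s ∈ B ∧ i ≤ ht p k s} :=
          Submodule.span_mono (s := {s | s ∈ B ∧ ht p k (p ^ i • m) ≤ ht p k s})
            (fun s hs => And.intro hs.1 (h2.trans hs.2)) h1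
        obtain ⟨w, hw, hwe⟩ := hlift i _ h3
        have h4 : m - w ∈ ⨆ s, D s := ih _ (by rw [smul_sub, hwe, sub_self])
        have h5 : m = (m - w) + w := by abel
        rw [h5]
        exact Submodule.add_mem _ h4 hw
  have htop : (⨆ s, D s) = ⊤ := by
    rw [eq_top_iff]
    intro m _
    exact hspan k m (hk m)
  -- independence of the socle
  have hsoc : ∀ (S : Finset B) (c : B → R), ∑ s ∈ S, c s • (s : M) = 0 →
      ∀ s ∈ S, c s • (s : M) = 0 := by
    intro S c hS
    by_contra hcon
    push Not at hcon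
    obtain ⟨s0, hs0, hs0'⟩ := hcon
    have hne : (S.filter (fun s => c s • (s : M) ≠ 0)).Nonempty :=
      ⟨s0, Finset.mem_filter.2 ⟨hs0, hs0'⟩⟩
    obtain ⟨s, hs, hmax⟩ := Finset.exists_max_image _ (fun s : B => key (s : M)) hne
    obtain ⟨hsS, hsne⟩ := Finset.mem_filter.1 hs
    have hp0 : p • (s : M) = 0 := s.2.1
    have hsum : c s • (s : M) = - ∑ t ∈ S.erase s, c t • (t : M) := by
      rw [eq_neg_iff_add_eq_zero, Finset.add_sum_erase _ (fun t : B => c t • (t : M)) hsS]
      exact hS
    have hmem : c s • (s : M) ∈ Submodule.span R (L s) := by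
      rw [hsum]
      refine Submodule.neg_mem _ (Submodule.sum_mem _ (fun t ht' => ?_))
      by_cases h0 : c t • (t : M) = 0
      · rw [h0]; exact Submodule.zero_mem _
      · refine Submodule.smul_mem _ _ (Submodule.subset_span ⟨t.2.1, ?_⟩)
        have h1 := hmax t (Finset.mem_filter.2 ⟨(Finset.mem_erase.1 ht').2, h0⟩)
        refine lt_of_le_of_ne h1 ?_
        intro he
        apply (Finset.mem_erase.1 ht').1
        have h2 : (k - ht p k (t : M), (t : M)) = (k - ht p k (s : M), (s : M)) :=
          toLex.injective he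
        exact Subtype.ext (Prod.mk.inj h2).2
    have hnd : ¬ p ∣ c s := by
      rintro ⟨r, hr⟩
      apply hsne
      rw [hr, mul_comm, mul_smul, hp0, smul_zero]
    obtain ⟨u, v, huv⟩ := (Prime.coprime_iff_not_dvd hp).2 hnd
    apply s.2.2
    have h3 : (s : M) = v • (c s • (s : M)) := by
      calc (s : M) = (u * p + v * c s) • (s : M) := by rw [huv, one_smul]
        _ = v • (c s • (s : M)) := by
          rw [add_smul, mul_smul, hp0, smul_zero, zero_add, mul_smul]
    have h4 := Submodule.smul_mem _ v hmem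
    rw [← h3] at h4
    exact h4
  -- independence, for families killed by p
  have hind1 : ∀ f : DirectSum B (fun s => D s), DirectSum.coeLinearMap D f = 0 → p • f = 0 →
      f = 0 := by
    intro f hf hpf
    have hc : ∀ s : B, ∃ c : R, (f s : M) = c • (s : M) := by
      intro s
      obtain ⟨r, hr⟩ := Submodule.mem_span_singleton.1 (f s).2
      have h1 : p ^ (ht p k (s : M) + 1) • b s = 0 := by
        rw [pow_succ', mul_smul, hb s]; exact s.2.1
      have h0 : p ^ (ht p k (s : M)) • b s ≠ 0 := by rw [hb s]; exact hB0 s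
      have h2 : (p * r) • b s = 0 := by
        rw [mul_smul, hr]
        exact congrArg (fun g : DirectSum B (fun s => D s) => ((g s : D s) : M)) hpf
      obtain ⟨c, hc⟩ := pow_dvd p hp _ (b s) r h1 h0 h2
      refine ⟨c, ?_⟩
      rw [← hr, hc, mul_comm, mul_smul, hb s]
    choose c hc using hc
    rw [DirectSum.coeLinearMap_eq_dfinsuppSum] at hf
    have h1 : ∑ s ∈ DFinsupp.support f, c s • (s : M) = 0 := by
      rw [← hf]
      refine Finset.sum_congr rfl (fun s _ => ?_)
      exact (hc s).symm
    have h2 := hsoc _ c h1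
    by_contra hne
    have hsupp : (DFinsupp.support f).Nonempty := by
      rw [Finset.nonempty_iff_ne_empty]
      intro h
      exact hne (DFinsupp.support_eq_empty.1 h)
    obtain ⟨s, hs⟩ := hsupp
    have h3 := h2 s hs
    rw [← hc s] at h3
    exact (DFinsupp.mem_support_iff.1 hs) (Subtype.ext h3)
  have hind : ∀ i : ℕ, ∀ f : DirectSum B (fun s => D s), DirectSum.coeLinearMap D f = 0 →
      p ^ i • f = 0 → f = 0 := by
    intro i
    induction i with
    | zero => intro f _ h; simpa using h
    | succ i ih =>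
      intro f hf h
      refine ih f hf (hind1 _ ?_ ?_)
      · rw [map_smul, hf, smul_zero]
      · rw [smul_smul, ← pow_succ', h]
  have hinj : Function.Injective (DirectSum.coeLinearMap D) := by
    rw [← LinearMap.ker_eq_bot, LinearMap.ker_eq_bot']
    intro f hf
    refine hind k f hf ?_
    refine DFinsupp.ext (fun s => ?_)
    apply Subtype.ext
    show p ^ k • ((f s : D s) : M) = 0
    exact hk _
  have hsurj : Function.Surjective (DirectSum.coeLinearMap D) := by
    rw [← LinearMap.range_eq_top, DirectSum.range_coeLinearMap, htop]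
  refine ⟨B, fun s => D s, inferInstance, inferInstance, ?_, ⟨(LinearEquiv.ofBijective
    (DirectSum.coeLinearMap D) ⟨hinj, hsurj⟩).symm⟩⟩
  intro s
  have hsur : Function.Surjective (fun r : R => (⟨r • b s, Submodule.smul_mem _ _
      (Submodule.mem_span_singleton_self _)⟩ : D s)) := by
    rintro ⟨x, hx⟩
    obtain ⟨r, hr⟩ := Submodule.mem_span_singleton.1 hx
    exact ⟨r, Subtype.ext hr⟩
  exact (mk_le_of_surjective hsur).trans hR

/-- direct sums of direct sums of small modules. -/
theorem sumOfSmall_sum {R : Type u} [Ring R] {ρ : Cardinal.{u}} {M : Type u} [AddCommGroup M]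
    [Module R M] (I : Type u) (N : I → Type u) [∀ i, AddCommGroup (N i)] [∀ i, Module R (N i)]
    (e : Nonempty (M ≃ₗ[R] DirectSum I N)) (h : ∀ i, SumOfSmall R ρ (N i)) :
    SumOfSmall R ρ M := by
  classical
  choose X E i1 i2 h3 h4 using h
  refine ⟨Σ i, X i, fun q => E q.1 q.2, fun q => i1 q.1 q.2, fun q => i2 q.1 q.2,
    fun q => h3 q.1 q.2, ?_⟩
  have e2 : ∀ i, (N i) ≃ₗ[R] (Π₀ x, E i x) := fun i => (h4 i).some
  have a1 : (Π₀ q : (Σ i, X i), E q.1 q.2) ≃ₗ[R] (Π₀ i, Π₀ x, E i x) :=
    DirectSum.sigmaLcurryEquiv R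
  have a2 : (Π₀ i, N i) ≃ₗ[R] (Π₀ i, Π₀ x, E i x) := DFinsupp.mapRange.linearEquiv e2
  have a3 : M ≃ₗ[R] (Π₀ i, N i) := e.some
  exact ⟨a3.trans (a2.trans a1.symm)⟩

end Bdd

open UniqueFactorizationMonoid in
/-- **BDD**. -/
theorem stmtBdd : StmtBdd.{u} := by
  classical
  intro R _ _ _ ρ hρ hR M _ _ hM
  obtain ⟨a, ha, hM⟩ := hM
  have hI : (Ideal.span {a} : Ideal R) ≠ ⊥ := by
    rw [Ne, Ideal.span_singleton_eq_bot]; exact ha
  have hT : Module.IsTorsionBySet R M (Ideal.span {a} : Ideal R) :=
    (Module.isTorsionBySet_span_singleton_iff a).2 (fun x => hM x)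
  have hint := Submodule.isInternal_prime_power_torsion_of_is_torsion_by_ideal hI hT
  refine Bdd.sumOfSmall_sum _ _ ⟨(LinearEquiv.ofBijective (DirectSum.coeLinearMap _) hint).symm⟩ ?_
  intro q
  have hq : Prime (q : Ideal R) := prime_of_factor _ (Multiset.mem_toFinset.mp q.2)
  obtain ⟨p, hpq⟩ := (IsPrincipalIdealRing.principal (q : Ideal R)).principal
  have hpq' : (q : Ideal R) = Ideal.span {p} := hpq
  have hp : Prime p := by
    have h1 : (q : Ideal R).IsPrime := Ideal.isPrime_of_prime hq
    rw [hpq'] at h1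
    refine (Ideal.span_singleton_prime ?_).1 h1
    rintro rfl
    apply hq.ne_zero
    rw [hpq']
    simp
  refine Bdd.primary p hp ((factors (Ideal.span {a} : Ideal R)).count (q : Ideal R)) ?_ ρ hR
  intro m
  apply Subtype.ext
  have h1 := m.2
  rw [Submodule.mem_torsionBySet_iff] at h1
  have h2 : p ^ ((factors (Ideal.span {a} : Ideal R)).count (q : Ideal R)) ∈
      (((q : Ideal R) ^ ((factors (Ideal.span {a} : Ideal R)).count (q : Ideal R)) :
        Ideal R) : Set R) := by
    refine Ideal.pow_mem_pow ?_ _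
    rw [hpq']
    exact Ideal.mem_span_singleton_self p
  exact h1 ⟨_, h2⟩

end Vale.Agent.P307
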