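import Vale.Agent.P307.Mods.Defs

/-! # P307: closing off under an isomorphism of direct sums (helper12) -/

namespace Vale.Agent.P307.CloseProof
open Cardinal Vale.Agent.P307

universe u

section
variable (R : Type u) [Ring R] {X : Type u} (E : X → Type u) [∀ x, AddCommGroup (E x)]
  [∀ x, Module R (E x)]

/-- the graph of a function of finite support, over `A`. -/
theorem graph_finite (A : Set X) (v : DS R E) :
    Set.Finite {p : (Σ a : A, E a) | p.2 ≠ 0 ∧ v.1 p.1 = p.2} := by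
  have hv : Set.Finite {a : A | v.1 a ≠ 0} :=
    Set.Finite.preimage (Subtype.val_injective.injOn) v.2
  refine (hv.image (fun a : A => (⟨a, v.1 a⟩ : Σ a : A, E a))).subset ?_
  rintro ⟨a, t⟩ ⟨h1, h2⟩
  refine ⟨a, ?_, ?_⟩
  · show v.1 a ≠ 0
    rw [show v.1 a = t from h2]
    exact h1
  · show (⟨a, v.1 a⟩ : Σ a : A, E a) = ⟨a, t⟩
    rw [show v.1 a = t from h2]

theorem card_cyl (χ : Cardinal.{u}) (hχ : ℵ₀ ≤ χ) (hE : ∀ x, #(E x) ≤ χ) (A : Set X)
    (hA : #A ≤ χ) : #(cylM R E A) ≤ χ := by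
  classical
  have h1 : #(Σ a : A, E a) ≤ χ := by
    rw [mk_sigma]
    calc Cardinal.sum (fun a : A => #(E a)) ≤ Cardinal.sum (fun _ : A => χ) :=
          Cardinal.sum_le_sum _ _ fun a => hE a
      _ = #A * χ := by rw [Cardinal.sum_const']
      _ ≤ χ * χ := mul_le_mul_left hA χ
      _ = χ := mul_eq_self hχ
  have h2 : #(Finset (Σ a : A, E a)) ≤ χ := by
    rcases finite_or_infinite (Σ a : A, E a) with h | h
    · exact (Cardinal.lt_aleph0_of_finite _).le.trans hχ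
    · rw [mk_finset_of_infinite]
      exact h1
  refine le_trans (Cardinal.mk_le_of_injective
    (f := fun v : cylM R E A => (graph_finite R E A v.1).toFinset) ?_) h2
  intro v w hvw
  have hset : {p : (Σ a : A, E a) | p.2 ≠ 0 ∧ v.1.1 p.1 = p.2} =
      {p : (Σ a : A, E a) | p.2 ≠ 0 ∧ w.1.1 p.1 = p.2} := by
    simpa using hvw
  apply Subtype.ext
  apply Subtype.ext
  funext x
  by_cases hx : x ∈ A
  · by_cases h0 : v.1.1 x = 0
    · by_contra hne
      have h0' : w.1.1 x ≠ 0 := fun h => hne (h0.trans h.symm)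
      have hm : (⟨⟨x, hx⟩, w.1.1 x⟩ : Σ a : A, E a) ∈
          {p : (Σ a : A, E a) | p.2 ≠ 0 ∧ w.1.1 p.1 = p.2} := ⟨h0', rfl⟩
      rw [← hset] at hm
      exact hne hm.2
    · have hm : (⟨⟨x, hx⟩, v.1.1 x⟩ : Σ a : A, E a) ∈
          {p : (Σ a : A, E a) | p.2 ≠ 0 ∧ v.1.1 p.1 = p.2} := ⟨h0, rfl⟩
      rw [hset] at hm
      exact hm.2.symm
  · exact (v.2 x hx).trans (w.2 x hx).symm

end

section
variable {R : Type u} [Ring R] {X Y : Type u} {E : X → Type u} {F : Y → Type u}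
  [∀ x, AddCommGroup (E x)] [∀ x, Module R (E x)] [∀ y, AddCommGroup (F y)]
  [∀ y, Module R (F y)]

/-- the union of the supports of the images of the functions vanishing outside `A`. -/
def img (g : DS R E → DS R F) (A : Set X) : Set Y :=
  ⋃ v : cylM R E A, {y | (g v.1).1 y ≠ 0}

theorem card_img (χ : Cardinal.{u}) (hχ : ℵ₀ ≤ χ) (hE : ∀ x, #(E x) ≤ χ)
    (g : DS R E → DS R F) (A : Set X) (hA : #A ≤ χ) : #(img g A) ≤ χ := by
  unfold img
  calc #(⋃ v : cylM R E A, {y | (g v.1).1 y ≠ 0})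
      ≤ Cardinal.sum (fun v : cylM R E A => #{y | (g v.1).1 y ≠ 0}) :=
        Cardinal.mk_iUnion_le_sum_mk
    _ ≤ Cardinal.sum (fun _ : cylM R E A => ℵ₀) :=
        Cardinal.sum_le_sum _ _ fun v => (Cardinal.lt_aleph0_iff_set_finite.2 (g v.1).2).le
    _ = #(cylM R E A) * ℵ₀ := by rw [Cardinal.sum_const']
    _ ≤ χ * χ := mul_le_mul' (card_cyl R E χ hχ hE A hA) hχ
    _ = χ := mul_eq_self hχ

theorem img_mono (g : DS R E → DS R F) {A A' : Set X} (h : A ⊆ A') : img g A ⊆ img g A' := by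
  intro y hy
  obtain ⟨v, hv⟩ := Set.mem_iUnion.1 hy
  exact Set.mem_iUnion.2 ⟨⟨v.1, fun x hx => v.2 x fun hxA => hx (h hxA)⟩, hv⟩

/-- one round of closing off. -/
def step (f : DS R E → DS R F) (g : DS R F → DS R E) (p : Set X × Set Y) : Set X × Set Y :=
  (p.1 ∪ img g p.2, p.2 ∪ img f p.1)

theorem step_mono (f : DS R E → DS R F) (g : DS R F → DS R E) (p : Set X × Set Y)
    {m n : ℕ} (h : m ≤ n) : ((step f g)^[m] p).1 ⊆ ((step f g)^[n] p).1 ∧
      ((step f g)^[m] p).2 ⊆ ((step f g)^[n] p).2 := by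
  induction n, h using Nat.le_induction with
  | base => exact ⟨subset_rfl, subset_rfl⟩
  | succ n hn ih =>
    rw [Function.iterate_succ_apply']
    exact ⟨ih.1.trans Set.subset_union_left, ih.2.trans Set.subset_union_left⟩

/-- a finite subset of an increasing union is contained in a member. -/
theorem fin_sub {Z : Type u} (S : ℕ → Set Z) (hS : ∀ m n, m ≤ n → S m ⊆ S n) (T : Set Z)
    (hT : T.Finite) (h : T ⊆ ⋃ n : ULift.{u} ℕ, S n.down) : ∃ n, T ⊆ S n := by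
  induction T, hT using Set.Finite.induction_on with
  | empty => exact ⟨0, Set.empty_subset _⟩
  | @insert a T _ _ ih =>
    obtain ⟨n, hn⟩ := ih ((Set.subset_insert a T).trans h)
    obtain ⟨m, hm⟩ := Set.mem_iUnion.1 (h (Set.mem_insert a T))
    refine ⟨max n m.down, ?_⟩
    intro x hx
    rcases hx with rfl | hx
    · exact hS _ _ (le_max_right _ _) hm
    · exact hS _ _ (le_max_left _ _) (hn hx)

theorem card_union {Z : Type u} (χ : Cardinal.{u}) (hχ : ℵ₀ ≤ χ) (S : ℕ → Set Z)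
    (hS : ∀ n, #(S n) ≤ χ) : #(⋃ n : ULift.{u} ℕ, S n.down) ≤ χ :=
  calc #(⋃ n : ULift.{u} ℕ, S n.down) ≤ Cardinal.sum (fun n : ULift.{u} ℕ => #(S n.down)) :=
        Cardinal.mk_iUnion_le_sum_mk
    _ ≤ Cardinal.sum (fun _ : ULift.{u} ℕ => χ) := Cardinal.sum_le_sum _ _ fun n => hS _
    _ = #(ULift.{u} ℕ) * χ := by rw [Cardinal.sum_const']
    _ ≤ χ * χ := mul_le_mul_left (by simpa using hχ) χ
    _ = χ := mul_eq_self hχ

theorem card_step (χ : Cardinal.{u}) (hχ : ℵ₀ ≤ χ) (hE : ∀ x, #(E x) ≤ χ)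
    (hF : ∀ y, #(F y) ≤ χ) (f : DS R E → DS R F) (g : DS R F → DS R E) (p : Set X × Set Y)
    (h1 : #p.1 ≤ χ) (h2 : #p.2 ≤ χ) (n : ℕ) :
    #((step f g)^[n] p).1 ≤ χ ∧ #((step f g)^[n] p).2 ≤ χ := by
  induction n with
  | zero => exact ⟨h1, h2⟩
  | succ n ih =>
    rw [Function.iterate_succ_apply']
    constructor
    · refine (Cardinal.mk_union_le _ _).trans ?_
      exact (add_le_add ih.1 (card_img χ hχ hF g _ ih.2)).trans (add_eq_self hχ).le
    · refine (Cardinal.mk_union_le _ _).trans ?_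
      exact (add_le_add ih.2 (card_img χ hχ hE f _ ih.1)).trans (add_eq_self hχ).le

theorem main (χ : Cardinal.{u}) (hχ : ℵ₀ ≤ χ) (hE : ∀ x, #(E x) ≤ χ)
    (hF : ∀ y, #(F y) ≤ χ) (f : DS R E ≃ₗ[R] DS R F) (A0 : Set X) (B0 : Set Y)
    (hA0 : #A0 ≤ χ) (hB0 : #B0 ≤ χ) :
    ∃ (A : Set X) (B : Set Y), A0 ⊆ A ∧ B0 ⊆ B ∧ #A ≤ χ ∧ #B ≤ χ ∧
      ∀ v, v ∈ cylM R E A ↔ f v ∈ cylM R F B := by
  set T := step (fun v => f v) (fun w => f.symm w) with hT
  set SA : ℕ → Set X := fun n => (T^[n] (A0, B0)).1 with hSA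
  set SB : ℕ → Set Y := fun n => (T^[n] (A0, B0)).2 with hSB
  have monA : ∀ m n, m ≤ n → SA m ⊆ SA n := fun m n h => (step_mono _ _ (A0, B0) h).1
  have monB : ∀ m n, m ≤ n → SB m ⊆ SB n := fun m n h => (step_mono _ _ (A0, B0) h).2
  have hc : ∀ n, #(SA n) ≤ χ ∧ #(SB n) ≤ χ := fun n =>
    card_step χ hχ hE hF _ _ (A0, B0) hA0 hB0 n
  have nextB : ∀ n, img (fun v => f v) (SA n) ⊆ SB (n + 1) := by
    intro n
    show _ ⊆ (T^[n + 1] (A0, B0)).2
    rw [Function.iterate_succ_apply']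
    exact Set.subset_union_right
  have nextA : ∀ n, img (fun w => f.symm w) (SB n) ⊆ SA (n + 1) := by
    intro n
    show _ ⊆ (T^[n + 1] (A0, B0)).1
    rw [Function.iterate_succ_apply']
    exact Set.subset_union_right
  refine ⟨⋃ n : ULift.{u} ℕ, SA n.down, ⋃ n : ULift.{u} ℕ, SB n.down, ?_, ?_,
    card_union χ hχ SA fun n => (hc n).1, card_union χ hχ SB fun n => (hc n).2, ?_⟩
  · exact fun x hx => Set.mem_iUnion.2 ⟨⟨0⟩, hx⟩
  · exact fun x hx => Set.mem_iUnion.2 ⟨⟨0⟩, hx⟩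
  · intro v
    constructor
    · intro hv
      have hsub : {x | v.1 x ≠ 0} ⊆ ⋃ n : ULift.{u} ℕ, SA n.down := by
        intro x hx
        by_contra hcon
        exact hx (hv x hcon)
      obtain ⟨n, hn⟩ := fin_sub SA monA _ v.2 hsub
      have hvn : v ∈ cylM R E (SA n) := by
        intro x hx
        by_contra hcon
        exact hx (hn hcon)
      intro y hy
      by_contra hcon
      exact hy (Set.mem_iUnion.2 ⟨⟨n + 1⟩, nextB n (Set.mem_iUnion.2 ⟨⟨v, hvn⟩, hcon⟩)⟩)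
    · intro hv
      have hsub : {y | (f v).1 y ≠ 0} ⊆ ⋃ n : ULift.{u} ℕ, SB n.down := by
        intro x hx
        by_contra hcon
        exact hx (hv x hcon)
      obtain ⟨n, hn⟩ := fin_sub SB monB _ (f v).2 hsub
      have hvn : f v ∈ cylM R F (SB n) := by
        intro x hx
        by_contra hcon
        exact hx (hn hcon)
      intro x hx
      by_contra hcon
      refine hx (Set.mem_iUnion.2 ⟨⟨n + 1⟩, nextA n (Set.mem_iUnion.2 ⟨⟨f v, hvn⟩, ?_⟩)⟩)
      show (f.symm (f v)).1 x ≠ 0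
      rwa [LinearEquiv.symm_apply_apply]

end

end Vale.Agent.P307.CloseProof

namespace Vale.Agent.P307

universe u

theorem stmtClose : StmtClose.{u} := by
  intro R _ χ hχ X Y E F _ _ _ _ hE hF f A0 B0 hA0 hB0
  exact CloseProof.main χ hχ hE hF f A0 B0 hA0 hB0

end Vale.Agent.P307
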