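import Mathlib
import Vale.Agent.P307.Mods.Defs

/-!
Statements for: eventual categoricity for all AECs of modules closed under direct powers.
-/

namespace Vale.Agent.P307

open Cardinal

universe u

/-- `S ≤_K T` for submodules `S`, `T` of an ambient module. -/
def ModAEC.LeIn {R : Type u} [Ring R] (K : ModAEC R) {U : Type u} [AddCommGroup U] [Module R U]
    (S T : Submodule R U) : Prop :=
  S ≤ T ∧ K.Le T (S.comap T.subtype)

/-- Kaplansky-Walker: a direct summand of a direct sum of modules of size at most `ρ` is a direct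
sum of modules of size at most `ρ`. -/
def StmtWalk : Prop :=
  ∀ (R : Type u) [Ring R] (ρ : Cardinal.{u}), ℵ₀ ≤ ρ → #R ≤ ρ → ∀ (X : Type u) (E : X → Type u)
    [∀ x, AddCommGroup (E x)] [∀ x, Module R (E x)], (∀ x, #(E x) ≤ ρ) →
    ∀ (M : Type u) [AddCommGroup M] [Module R M] (s : M →ₗ[R] DS R E) (f : DS R E →ₗ[R] M),
    (∀ m, f (s m) = m) → SumOfSmall R ρ M

/-- chains of submodules of an ambient module. -/
def StmtRel : Prop :=
  ∀ (R : Type u) [Ring R] (K : ModAEC R) (U : Type u) [AddCommGroup U] [Module R U]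
    (ι : Type u) [LinearOrder ι] [WellFoundedLT ι] [Nonempty ι] (V : ι → Submodule R U),
    Monotone V → (∀ i j, i ≤ j → K.LeIn (V i) (V j)) →
    K.Mem (⨆ i, V i : Submodule R U) ∧ (∀ i, K.LeIn (V i) (⨆ i, V i)) ∧
      ∀ W : Submodule R U, (∀ i, K.LeIn (V i) W) → K.LeIn (⨆ i, V i) W

/-- directed unions of submodules of an ambient module. -/
def StmtDirU : Prop :=
  ∀ (R : Type u) [Ring R] (K : ModAEC R) (U : Type u) [AddCommGroup U] [Module R U]
    (ι : Type u) [Nonempty ι] (V : ι → Submodule R U),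
    (∀ i j, ∃ k, V i ≤ V k ∧ V j ≤ V k) → (∀ i j, V i ≤ V j → K.LeIn (V i) (V j)) →
    K.Mem (⨆ i, V i : Submodule R U) ∧ (∀ i, K.LeIn (V i) (⨆ i, V i)) ∧
      ∀ W : Submodule R U, (∀ i, K.LeIn (V i) W) → K.LeIn (⨆ i, V i) W

end Vale.Agent.P307
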