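import Mathlib
import Vale.Agent.P307.Mods.Defs3

/-!
Abstract elementary classes of modules are closed under directed unions (helper8).
-/

namespace Vale.Agent.P307

open Cardinal Set

universe u

namespace DirU

section closure

variable {ι : Type u} (d : ι → ι → ι)

/-- closing off under `d`, `n` steps. -/
def st (A : Set ι) : ℕ → Set ι
  | 0 => A
  | n + 1 => st A n ∪ (fun p : ι × ι => d p.1 p.2) '' (st A n ×ˢ st A n)

/-- closure under `d`. -/
def cl (A : Set ι) : Set ι := ⋃ n : ULift.{u} ℕ, st d A n.down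

lemma mem_cl {A : Set ι} {x : ι} : x ∈ cl d A ↔ ∃ n : ℕ, x ∈ st d A n := by
  unfold cl
  rw [mem_iUnion]
  constructor
  · rintro ⟨n, hn⟩
    exact ⟨n.down, hn⟩
  · rintro ⟨n, hn⟩
    exact ⟨⟨n⟩, hn⟩

lemma st_mono_n (A : Set ι) : Monotone (st d A) :=
  monotone_nat_of_le_succ fun _ => subset_union_left

lemma st_mono {A B : Set ι} (h : A ⊆ B) (n : ℕ) : st d A n ⊆ st d B n := by
  induction n with
  | zero => exact h
  | succ n ih =>
    exact union_subset_union ih (image_mono (prod_mono ih ih))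

lemma cl_mono {A B : Set ι} (h : A ⊆ B) : cl d A ⊆ cl d B := by
  intro x hx
  rw [mem_cl] at hx ⊢
  obtain ⟨n, hn⟩ := hx
  exact ⟨n, st_mono d h n hn⟩

lemma subset_cl (A : Set ι) : A ⊆ cl d A := fun x hx => (mem_cl d).2 ⟨0, hx⟩

lemma cl_closed {A : Set ι} {x y : ι} (hx : x ∈ cl d A) (hy : y ∈ cl d A) : d x y ∈ cl d A := by
  rw [mem_cl] at hx hy ⊢
  obtain ⟨a, ha⟩ := hx
  obtain ⟨b, hb⟩ := hy
  refine ⟨max a b + 1, Or.inr ⟨(x, y), ⟨?_, ?_⟩, rfl⟩⟩
  · exact st_mono_n d A (le_max_left a b) ha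
  · exact st_mono_n d A (le_max_right a b) hb

lemma mk_st_le {χ : Cardinal.{u}} (hχ : ℵ₀ ≤ χ) {A : Set ι} (hA : #A ≤ χ) (n : ℕ) :
    #(st d A n) ≤ χ := by
  induction n with
  | zero => exact hA
  | succ n ih =>
    refine (mk_union_le _ _).trans ?_
    have h1 : #((fun p : ι × ι => d p.1 p.2) '' (st d A n ×ˢ st d A n) : Set ι) ≤ χ := by
      refine mk_image_le.trans ?_
      have h2 : #(st d A n ×ˢ st d A n : Set (ι × ι)) = #(st d A n) * #(st d A n) := by
        rw [mk_setProd]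
      rw [h2]
      calc #(st d A n) * #(st d A n) ≤ χ * χ := mul_le_mul' ih ih
        _ = χ := mul_eq_self hχ
    calc #(st d A n) + _ ≤ χ + χ := add_le_add ih h1
      _ = χ := add_eq_self hχ

lemma mk_cl_le {χ : Cardinal.{u}} (hχ : ℵ₀ ≤ χ) {A : Set ι} (hA : #A ≤ χ) : #(cl d A) ≤ χ := by
  unfold cl
  refine (mk_iUnion_le _).trans ?_
  have h1 : #(ULift.{u} ℕ) ≤ χ := by simpa using hχ
  have h2 : ⨆ n : ULift.{u} ℕ, #(st d A n.down) ≤ χ := ciSup_le' fun n => mk_st_le d hχ hA _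
  calc #(ULift.{u} ℕ) * ⨆ n : ULift.{u} ℕ, #(st d A n.down) ≤ χ * χ := mul_le_mul' h1 h2
    _ = χ := mul_eq_self hχ

end closure

variable {R : Type u} [Ring R] (K : ModAEC R) {U : Type u} [AddCommGroup U] [Module R U]

lemma leIn_trans {S T W : Submodule R U} (h1 : K.LeIn S T) (h2 : K.LeIn T W) : K.LeIn S W := by
  refine ⟨h1.1.trans h2.1, ?_⟩
  have h3 := K.le_iso T _ (Submodule.comapSubtypeEquivOfLe h2.1).symm _ h1.2
  have h4 := K.le_trans W (T.comap W.subtype) _ h2.2 h3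
  convert h4 using 1
  ext x
  constructor
  · intro hx
    have hx' : x.1 ∈ S := hx
    refine ⟨⟨x, h1.1 hx'⟩, ⟨⟨x.1, h1.1 hx'⟩, hx', ?_⟩, rfl⟩
    rfl
  · rintro ⟨y, ⟨z, hz, rfl⟩, rfl⟩
    exact hz

/-- the conclusion for a family of submodules -/
def Good {ι : Type u} (V : ι → Submodule R U) : Prop :=
  K.Mem (⨆ i, V i : Submodule R U) ∧ (∀ i, K.LeIn (V i) (⨆ i, V i)) ∧
    ∀ W : Submodule R U, (∀ i, K.LeIn (V i) W) → K.LeIn (⨆ i, V i) W

lemma good_of_eq {ι κ : Type u} {V : ι → Submodule R U} {V' : κ → Submodule R U}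
    (hg : Good K V') (h : ⨆ j, V' j = ⨆ i, V i) (h1 : ∀ i, ∃ j, K.LeIn (V i) (V' j))
    (h2 : ∀ W, (∀ i, K.LeIn (V i) W) → ∀ j, K.LeIn (V' j) W) : Good K V := by
  unfold Good at hg ⊢
  rw [h] at hg
  refine ⟨hg.1, fun i => ?_, fun W hW => hg.2.2 W (h2 W hW)⟩
  obtain ⟨j, hj⟩ := h1 i
  exact leIn_trans K hj (hg.2.1 j)

lemma le_refl_of {ι : Type u} {V : ι → Submodule R U}
    (hle : ∀ i j, V i ≤ V j → K.LeIn (V i) (V j)) (i : ι) : K.LeIn (V i) (V i) :=
  hle i i le_rfl

/-- the countable case -/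
lemma count (hR : StmtRel.{u}) {ι : Type u} [Nonempty ι] [Countable ι] (V : ι → Submodule R U)
    (hd : ∀ i j, ∃ k, V i ≤ V k ∧ V j ≤ V k) (hle : ∀ i j, V i ≤ V j → K.LeIn (V i) (V j)) :
    Good K V := by
  choose d hd1 hd2 using hd
  obtain ⟨f, hf⟩ := exists_surjective_nat ι
  let g : ℕ → ι := fun n => Nat.rec (f 0) (fun n x => d x (f (n + 1))) n
  have g0 : g 0 = f 0 := rfl
  have gs : ∀ n, g (n + 1) = d (g n) (f (n + 1)) := fun n => rfl
  have hmono : Monotone fun n => V (g n) := monotone_nat_of_le_succ fun n => by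
    rw [gs]
    exact hd1 _ _
  have hfg : ∀ n, V (f n) ≤ V (g n) := by
    intro n
    cases n with
    | zero => exact le_rfl
    | succ n =>
      rw [gs]
      exact hd2 _ _
  have hg : Good K (fun i : ULift.{u} ℕ => V (g i.down)) :=
    hR R K U (ULift.{u} ℕ) (fun i => V (g i.down)) (fun i j hij => hmono hij)
      (fun i j hij => hle _ _ (hmono hij))
  refine good_of_eq K hg ?_ ?_ ?_
  · apply le_antisymm
    · exact iSup_le fun j => le_iSup V _
    · refine iSup_le fun i => ?_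
      obtain ⟨n, rfl⟩ := hf i
      exact (hfg n).trans (le_iSup (fun i : ULift.{u} ℕ => V (g i.down)) ⟨n⟩)
  · intro i
    obtain ⟨n, rfl⟩ := hf i
    exact ⟨⟨n⟩, hle _ _ (hfg n)⟩
  · intro W hW j
    exact hW _

lemma main (hR : StmtRel.{u}) (θ : Cardinal.{u}) :
    ∀ (ι : Type u) [Nonempty ι] (V : ι → Submodule R U), #ι = θ →
    (∀ i j, ∃ k, V i ≤ V k ∧ V j ≤ V k) → (∀ i j, V i ≤ V j → K.LeIn (V i) (V j)) →
    Good K V := by
  induction θ using WellFoundedLT.induction with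
  | ind θ ih =>
  intro ι _ V hθ hd hle
  by_cases hc : #ι ≤ ℵ₀
  · haveI : Countable ι := mk_le_aleph0_iff.1 hc
    exact count K hR V hd hle
  · have hω : ℵ₀ < #ι := not_le.1 hc
    choose d hd1 hd2 using hd
    obtain ⟨e⟩ := Cardinal.eq.1 (mk_ord_toType (#ι))
    let A : (#ι).ord.ToType → Set ι := fun a => cl d (e '' Iic a)
    have hAmono : ∀ a b, a ≤ b → A a ⊆ A b := fun a b hab =>
      cl_mono d (image_mono (Iic_subset_Iic.2 hab))
    have hAe : ∀ a, e a ∈ A a := fun a => subset_cl d _ ⟨a, mem_Iic.2 le_rfl, rfl⟩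
    have hAcard : ∀ a, #(A a) < #ι := by
      intro a
      have h1 : #(Iio a) < #ι := mk_Iio_toType_ord_lt a
      have h2 : #(Iic a) ≤ #(Iio a) + 1 := by
        have : (Iic a : Set (#ι).ord.ToType) = insert a (Iio a) := by
          ext x
          rw [mem_insert_iff, mem_Iic, mem_Iio]
          exact le_iff_eq_or_lt
        rw [this]
        exact mk_insert_le
      have h3 : #(e '' Iic a : Set ι) ≤ max (#(Iio a)) ℵ₀ := by
        refine mk_image_le.trans (h2.trans ?_)
        calc #(Iio a) + 1 ≤ max (#(Iio a)) ℵ₀ + max (#(Iio a)) ℵ₀ :=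
              add_le_add (le_max_left _ _) (one_le_aleph0.trans (le_max_right _ _))
          _ = max (#(Iio a)) ℵ₀ := add_eq_self (le_max_right _ _)
      exact (mk_cl_le d (le_max_right _ _) h3).trans_lt (max_lt h1 hω)
    have hgood : ∀ a, Good K (fun i : A a => V i.1) := by
      intro a
      haveI : Nonempty (A a) := ⟨⟨e a, hAe a⟩⟩
      refine ih (#(A a)) (hθ ▸ hAcard a) (A a) (fun i => V i.1) rfl ?_ ?_
      · intro i j
        exact ⟨⟨d i.1 j.1, cl_closed d i.2 j.2⟩, hd1 _ _, hd2 _ _⟩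
      · intro i j hij
        exact hle _ _ hij
    let S : (#ι).ord.ToType → Submodule R U := fun a => ⨆ i : A a, V i.1
    have hSmono : Monotone S := by
      intro a b hab
      refine iSup_le fun i => ?_
      exact le_iSup (fun i : A b => V i.1) ⟨i.1, hAmono a b hab i.2⟩
    have hSle : ∀ a b, a ≤ b → K.LeIn (S a) (S b) := by
      intro a b hab
      refine (hgood a).2.2 (S b) fun i => ?_
      exact (hgood b).2.1 ⟨i.1, hAmono a b hab i.2⟩
    haveI : Nonempty (#ι).ord.ToType := ⟨e.symm (Classical.arbitrary ι)⟩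
    have hg : Good K S := hR R K U (#ι).ord.ToType S hSmono hSle
    refine good_of_eq K hg ?_ ?_ ?_
    · apply le_antisymm
      · exact iSup_le fun a => iSup_le fun i => le_iSup V _
      · refine iSup_le fun i => ?_
        have h1 : i ∈ A (e.symm i) := by
          have := hAe (e.symm i)
          rwa [e.apply_symm_apply] at this
        exact (le_iSup (fun j : A (e.symm i) => V j.1) ⟨i, h1⟩).trans (le_iSup S (e.symm i))
    · intro i
      have h1 : i ∈ A (e.symm i) := by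
        have := hAe (e.symm i)
        rwa [e.apply_symm_apply] at this
      exact ⟨e.symm i, (hgood (e.symm i)).2.1 ⟨i, h1⟩⟩
    · intro W hW a
      exact (hgood a).2.2 W fun i => hW _

end DirU

/-- closure of AECs of modules under directed unions. -/
theorem stmtDirU (h : StmtRel.{u}) : StmtDirU.{u} := by
  intro R _ K U _ _ ι _ V hd hle
  exact DirU.main K h (#ι) ι V rfl hd hle

end Vale.Agent.P307
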