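import Mathlib
import Vale.Agent.P307.Mods.Defs

/-!
Direct powers.
-/

namespace Vale.Agent.P307

universe u

/-- the class is closed under infinite direct powers (direct sums of copies of one member). -/
def ModAEC.ClosedPow {R : Type u} [Ring R] (K : ModAEC R) : Prop :=
  ∀ (M : Type u) [AddCommGroup M] [Module R M], K.Mem M →
    ∀ (I : Type u) [Infinite I], K.Mem (I →₀ M)

end Vale.Agent.P307
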