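import Vale.Agent.P307.Mods.Defs

/-! # P307: the complementary parts of a matched isomorphism (helper12) -/

namespace Vale.Agent.P307.ComplProof
open Cardinal Vale.Agent.P307

universe u

section
variable (R : Type u) [Ring R] {X : Type u} (E : X → Type u) [∀ x, AddCommGroup (E x)]
  [∀ x, Module R (E x)]

/-- restriction of the functions of finite support. -/
def res (A : Set X) : DS R E →ₗ[R] DS R (fun a : A => E a) where
  toFun f := ⟨fun a => f.1 a, by
    show Set.Finite {a : A | f.1 a ≠ 0}
    exact Set.Finite.preimage (Subtype.val_injective.injOn) f.2⟩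
  map_add' f g := rfl
  map_smul' r f := rfl

/-- extension by zero. -/
noncomputable def extz (A : Set X) (g : DS R (fun a : A => E a)) : DS R E := by
  classical
  exact ⟨fun x => if h : x ∈ A then g.1 ⟨x, h⟩ else 0, by
    show Set.Finite {x | (if h : x ∈ A then g.1 ⟨x, h⟩ else 0) ≠ 0}
    have hg : Set.Finite {a : A | g.1 a ≠ 0} := g.2
    refine (hg.image Subtype.val).subset ?_
    intro x hx
    by_cases h : x ∈ A
    · refine ⟨⟨x, h⟩, ?_, rfl⟩
      simpa [h] using hx
    · simp [h] at hx⟩

theorem extz_cyl (A : Set X) (g : DS R (fun a : A => E a)) : extz R E A g ∈ cylM R E A := by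
  intro x hx
  show (extz R E A g).1 x = 0
  unfold extz
  exact dif_neg hx

theorem res_extz (A : Set X) (g : DS R (fun a : A => E a)) : res R E A (extz R E A g) = g := by
  apply Subtype.ext
  funext a
  show (extz R E A g).1 a = g.1 a
  unfold extz
  exact dif_pos a.2

theorem res_surj (A : Set X) : Function.Surjective (res R E A) := fun g =>
  ⟨extz R E A g, res_extz R E A g⟩

theorem ker_res (A : Set X) : LinearMap.ker (res R E Aᶜ) = cylM R E A := by
  ext f
  rw [LinearMap.mem_ker]
  constructor
  · intro h x hx
    exact congrArg (fun g : DS R (fun a : (Aᶜ : Set X) => E a) => g.1 ⟨x, hx⟩) h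
  · intro h
    apply Subtype.ext
    funext a
    exact h a a.2

/-- the functions vanishing outside `A`. -/
noncomputable def cylEquiv (A : Set X) : cylM R E A ≃ₗ[R] DS R (fun a : A => E a) :=
  LinearEquiv.ofBijective ((res R E A).domRestrict (cylM R E A)) (by
    constructor
    · intro v w hv
      apply Subtype.ext
      apply Subtype.ext
      funext x
      by_cases hx : x ∈ A
      · exact congrArg (fun g : DS R (fun a : A => E a) => g.1 ⟨x, hx⟩) hv
      · exact (v.2 x hx).trans (w.2 x hx).symm
    · intro g
      exact ⟨⟨extz R E A g, extz_cyl R E A g⟩, res_extz R E A g⟩)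

/-- the quotient by the functions vanishing outside `A`. -/
noncomputable def quotEquiv (A : Set X) :
    (DS R E ⧸ cylM R E A) ≃ₗ[R] DS R (fun a : (Aᶜ : Set X) => E a) :=
  (Submodule.quotEquivOfEq _ _ (ker_res R E A).symm).trans
    ((res R E Aᶜ).quotKerEquivOfSurjective (res_surj R E Aᶜ))

end

end Vale.Agent.P307.ComplProof

namespace Vale.Agent.P307

universe u

open ComplProof in
theorem stmtCompl : StmtCompl.{u} := by
  intro R _ X Y E F _ _ _ _ f A B h
  have hmap : (cylM R E A).map (f : DS R E →ₗ[R] DS R F) = cylM R F B := by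
    ext w
    constructor
    · rintro ⟨v, hv, rfl⟩
      exact (h v).1 hv
    · intro hw
      refine ⟨f.symm w, ?_, by simp⟩
      rw [SetLike.mem_coe, h]
      simpa using hw
  constructor
  · exact ⟨(cylEquiv R E A).symm.trans ((f.ofSubmodules _ _ hmap).trans (cylEquiv R F B))⟩
  · exact ⟨(quotEquiv R E A).symm.trans
      ((Submodule.Quotient.equiv _ _ f hmap).trans (quotEquiv R F B))⟩

end Vale.Agent.P307
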