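import Vale.Agent.P307.Mods.Defs

/-! # P307: sums of isomorphic direct sums (helper5) -/

namespace Vale.Agent.P307

universe u

/-- the map from the finitely supported functions of Mathlib -/
noncomputable def dsMap (R : Type u) [Ring R] {X : Type u} (E : X → Type u)
    [∀ x, AddCommGroup (E x)] [∀ x, Module R (E x)] : (Π₀ x, E x) →ₗ[R] DS R E where
  toFun := fun g => ⟨fun x => g x, by
    classical
    refine (g.support.finite_toSet).subset ?_
    intro x hx
    simpa using hx⟩
  map_add' := fun g h => by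
    apply Subtype.ext
    funext x
    show (g + h) x = g x + h x
    rfl
  map_smul' := fun r g => by
    apply Subtype.ext
    funext x
    show (r • g) x = r • g x
    rfl

/-- the functions of finite support and the finitely supported functions of Mathlib -/
noncomputable def dsEquiv (R : Type u) [Ring R] {X : Type u} (E : X → Type u)
    [∀ x, AddCommGroup (E x)] [∀ x, Module R (E x)] : (Π₀ x, E x) ≃ₗ[R] DS R E := by
  classical
  refine LinearEquiv.ofBijective (dsMap R E) ⟨?_, ?_⟩
  · intro g h hgh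
    have h1 := congrArg Subtype.val hgh
    ext x
    exact congrFun h1 x
  · intro f
    have hf : {x | f.1 x ≠ 0}.Finite := f.2
    refine ⟨DFinsupp.mk hf.toFinset fun i => f.1 i, ?_⟩
    apply Subtype.ext
    funext x
    show (DFinsupp.mk hf.toFinset fun i => f.1 i) x = f.1 x
    rw [DFinsupp.mk_apply]
    split_ifs with h
    · rfl
    · rw [Set.Finite.mem_toFinset] at h
      by_contra hne
      exact h (fun h0 => hne h0.symm)

theorem stmtSum : StmtSum.{u} := by
  classical
  intro R _ I X Y E F _ _ _ _ h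
  have e : ∀ i, (Π₀ x, E i x) ≃ₗ[R] (Π₀ y, F i y) := fun i =>
    (dsEquiv R (E i)).trans ((h i).some.trans (dsEquiv R (F i)).symm)
  have a1 : (Π₀ p : (Σ i, X i), E p.1 p.2) ≃ₗ[R] (Π₀ i, Π₀ x, E i x) :=
    DirectSum.sigmaLcurryEquiv R
  have a2 : (Π₀ p : (Σ i, Y i), F p.1 p.2) ≃ₗ[R] (Π₀ i, Π₀ y, F i y) :=
    DirectSum.sigmaLcurryEquiv R
  have a3 : (Π₀ p : (Σ i, X i), E p.1 p.2) ≃ₗ[R] (Π₀ p : (Σ i, Y i), F p.1 p.2) :=
    a1.trans ((DFinsupp.mapRange.linearEquiv e).trans a2.symm)
  exact ⟨(dsEquiv R (fun p : (Σ i, X i) => E p.1 p.2)).symm.trans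
    (a3.trans (dsEquiv R (fun p : (Σ i, Y i) => F p.1 p.2)))⟩

end Vale.Agent.P307
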