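import Mathlib
import Vale.Agent.P307.Mods.Basic
import Vale.Agent.P307.Col

/-!
The class of coloured sets attached to an abstract elementary class of modules.
-/

namespace Vale.Agent.P307

open Cardinal Set

universe u

lemma ls_cylM {R : Type u} [Ring R] (K : ModAEC R) {ℓ χ : Cardinal.{u}}
    (hℓ : K.IsLS ℓ) (hℓχ : ℓ ≤ χ) (hχ : ℵ₀ ≤ χ) {X : Type u} (E : X → Type u)
    [∀ x, AddCommGroup (E x)] [∀ x, Module R (E x)] (hE : ∀ x, #(E x) ≤ χ)
    (hc : K.Mem (DS R E)) (A : Set X) (hA : #A ≤ χ) :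
    ∃ B : Set X, A ⊆ B ∧ #B ≤ χ ∧ K.Le (DS R E) (cylM R E B) := by
  classical
  have step : ∀ A : {A : Set X // #A ≤ χ}, ∃ S : Submodule R (DS R E), cylM R E A.1 ≤ S ∧
      K.Le (DS R E) S ∧ #S ≤ χ := by
    intro A
    obtain ⟨S, h1, h2, h3⟩ := hℓ.2.2 (DS R E) hc (cylM R E A.1)
    refine ⟨S, h1, h2, h3.trans ?_⟩
    exact (add_le_add (card_cylM_le hχ hE A.1 A.2) hℓχ).trans (Cardinal.add_eq_self hχ).le
  choose S hS1 hS2 hS3 using step
  let f : {A : Set X // #A ≤ χ} → {A : Set X // #A ≤ χ} := fun A =>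
    ⟨A.1 ∪ {x | ∃ g ∈ (S A : Set (DS R E)), g.1 x ≠ 0},
      (Cardinal.mk_union_le _ _).trans ((add_le_add A.2 (card_supp_le hχ _ (hS3 A))).trans
        (Cardinal.add_eq_self hχ).le)⟩
  let s : ℕ → {A : Set X // #A ≤ χ} := fun n => f^[n] ⟨A, hA⟩
  have hs : ∀ n, s (n + 1) = f (s n) := fun n => Function.iterate_succ_apply' f n _
  have h1 : ∀ n, S (s n) ≤ cylM R E (s (n + 1)).1 := by
    intro n g hg x hx
    by_contra h0
    apply hx
    rw [hs]
    exact Or.inr ⟨g, hg, h0⟩
  have h2 : ∀ n, cylM R E (s n).1 ≤ S (s n) := fun n => hS1 _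
  have hmono : Monotone (fun n => S (s n)) :=
    monotone_nat_of_le_succ (fun n => (h1 n).trans (h2 (n + 1)))
  have h3 : Monotone (fun n => (s n).1) := by
    apply monotone_nat_of_le_succ
    intro n x hx
    rw [hs]
    exact Or.inl hx
  have h4 : (⋃ n, (s n).1) = ⋃ n : ULift.{u} ℕ, (s n.down).1 := by
    ext x
    simp only [Set.mem_iUnion]
    constructor
    · rintro ⟨n, hn⟩; exact ⟨⟨n⟩, hn⟩
    · rintro ⟨n, hn⟩; exact ⟨n.down, hn⟩
  refine ⟨⋃ n, (s n).1, ?_, ?_, ?_⟩
  · exact Set.subset_iUnion (fun n => (s n).1) 0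
  · rw [h4]
    refine Cardinal.mk_iUnion_le_sum_mk.trans ?_
    refine (Cardinal.sum_le_sum _ (fun _ => χ) (fun n : ULift.{u} ℕ => (s n.down).2)).trans ?_
    rw [Cardinal.sum_const']
    refine (mul_le_mul' ?_ le_rfl).trans (Cardinal.mul_eq_self hχ).le
    simpa using hχ
  · refine K.chain_le (DS R E) (ULift.{u} ℕ) (fun n => S (s n.down)) ?_ ?_ ?_ _ ?_
    · intro i j hij
      exact hmono (show i.down ≤ j.down from hij)
    · intro i j hij
      exact K.coherence (DS R E) _ _ (hmono (show i.down ≤ j.down from hij)) (hS2 _) (hS2 _)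
    · intro i; exact hS2 _
    · intro g
      constructor
      · intro hg
        have h5 : Monotone (fun n : ULift.{u} ℕ => (s n.down).1) :=
          fun i j hij => h3 (show i.down ≤ j.down from hij)
        obtain ⟨n, hn⟩ := exists_cylM h5 g (by
          intro x hx
          by_contra hcon
          apply hx
          apply hg
          intro hx2
          rw [h4, Set.mem_iUnion] at hx2
          exact hcon hx2)
        exact ⟨n, h2 n.down hn⟩
      · rintro ⟨n, hn⟩
        exact cylM_mono (Set.subset_iUnion (fun n => (s n).1) (n.down + 1)) (h1 n.down hn)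

/-- the class of coloured sets. -/
def toColM {R : Type u} [Ring R] (K : ModAEC R) {ℓ χ : Cardinal.{u}}
    (hℓ : K.IsLS ℓ) (hℓχ : ℓ ≤ χ) (hχ : ℵ₀ ≤ χ) {T : Type u} (D : T → Type u)
    [∀ t, AddCommGroup (D t)] [∀ t, Module R (D t)] (hD : ∀ t, #(D t) ≤ χ) : ColAEC T χ where
  Cl := fun X c => K.Mem (DS R (fun x : X => D (c x)))
  St := fun X c A => K.Le (DS R (fun x : X => D (c x))) (cylM R (fun x : X => D (c x)) A)
  cl_sub := fun X c A h => K.mem_iso _ _ (cylIsoM R (fun x : X => D (c x)) A) (K.mem_of_le _ _ h).1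
  cl_self := fun X c A h => (K.mem_of_le _ _ h).2
  univ := fun X c h => by
    have h1 := K.le_refl _ h
    have h2 : (⊤ : Submodule R (DS R (fun x : X => D (c x)))) = cylM R (fun x : X => D (c x)) Set.univ := by
      ext p
      constructor
      · intro _ x hx; exact absurd (Set.mem_univ x) hx
      · intro _; exact Submodule.mem_top
    rwa [h2] at h1
  iso := fun X Y e d A h => by
    have h1 := K.le_iso _ _ (reindexM (R := R) (F := fun y => D (d y)) e) _ h
    rwa [map_cylM_reindex] at h1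
  coh := fun X c A B hAB hA hB => by
    have h1 := K.coherence _ _ _ (cylM_mono hAB) hA hB
    have h2 := K.le_iso _ _ (cylIsoM R (fun x : X => D (c x)) B) _ h1
    rwa [map_comap_cylM] at h2
  trans := fun X c A B hAB hB hA => by
    have h1 := K.le_iso (DS R (fun b : B => D (c b))) (cylM R (fun x : X => D (c x)) B)
      (cylIsoM R (fun x : X => D (c x)) B).symm _ hA
    rw [map_cylM_symm (E := fun x : X => D (c x)) A B] at h1
    have h2 := K.le_trans _ _ _ hB h1
    rwa [map_comap_subM hAB] at h2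
  chain := fun X c ι _ _ _ A hA hcov h => by
    refine K.chain_mem (DS R (fun x : X => D (c x))) ι
      (fun i => cylM R (fun x : X => D (c x)) (A i)) (fun i j hij => cylM_mono (hA hij))
      (fun p => exists_cylM hA p (fun x _ => hcov x)) ?_
    intro i j hij
    have h1 := K.le_iso (DS R (fun b : A j => D (c b))) (cylM R (fun x : X => D (c x)) (A j))
      (cylIsoM R (fun x : X => D (c x)) (A j)).symm _ (h i j hij)
    rwa [map_cylM_symm (E := fun x : X => D (c x)) (A i) (A j)] at h1
  chain2 := fun X c ι _ _ _ A hA h => by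
    refine K.chain_le (DS R (fun x : X => D (c x))) ι
      (fun i => cylM R (fun x : X => D (c x)) (A i)) (fun i j hij => cylM_mono (hA hij))
      ?_ h _ ?_
    · intro i j hij
      exact K.coherence _ _ _ (cylM_mono (hA hij)) (h i) (h j)
    · intro p
      constructor
      · intro hp
        refine exists_cylM hA p ?_
        intro x hx
        by_contra hcon
        apply hx
        apply hp
        intro hx2
        exact hcon (Set.mem_iUnion.1 hx2)
      · rintro ⟨i, hi⟩
        exact cylM_mono (Set.subset_iUnion A i) hi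
  ls := fun X c hc A hA => ls_cylM K hℓ hℓχ hχ _ (fun x => hD (c x)) hc A hA

end Vale.Agent.P307
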