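import Mathlib
import Vale.Agent.P307.SimTransfer
import Vale.Agent.P307.Mods.ToCol
import Vale.Agent.P307.Mods.Close
import Vale.Agent.P307.Mods.Compl
import Vale.Agent.P307.Mods.Sum

/-!
The transfer theorem for abstract elementary classes of modules.
-/

namespace Vale.Agent.P307

open Cardinal Set

universe u

lemma isLS_LS_mod {R : Type u} [Ring R] (K : ModAEC R) : K.IsLS K.LS := by
  have h : {ℓ | K.IsLS ℓ}.Nonempty := K.exists_ls
  exact csInf_mem h

/-- comparison with the direct sum of Mathlib. -/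
lemma exists_directSum_equiv {R : Type u} [Ring R] {X : Type u} (E : X → Type u)
    [∀ x, AddCommGroup (E x)] [∀ x, Module R (E x)] : Nonempty (DirectSum X E ≃ₗ[R] DS R E) := by
  classical
  let f : DirectSum X E →ₗ[R] DS R E :=
    { toFun := fun f => ⟨fun x => f x, DFinsupp.finite_support f⟩
      map_add' := fun f g => rfl
      map_smul' := fun r f => rfl }
  refine ⟨LinearEquiv.ofBijective f ⟨?_, ?_⟩⟩
  · intro a b h
    apply DFinsupp.ext
    intro x
    exact congrArg (fun g : DS R E => g.1 x) h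
  · intro g
    refine ⟨(DFinsupp.mk g.2.toFinset (fun x => g.1 x) : Π₀ x, E x), ?_⟩
    apply DS_ext
    intro x
    show (DFinsupp.mk g.2.toFinset (fun x => g.1 x) : Π₀ x, E x) x = g.1 x
    rw [DFinsupp.mk_apply]
    split_ifs with h
    · rfl
    · by_contra hcon
      exact h (g.2.mem_toFinset.2 (fun h0 => hcon h0.symm))

/-- changing the summands. -/
def mapDS {R : Type u} [Ring R] {X : Type u} {E F : X → Type u}
    [∀ x, AddCommGroup (E x)] [∀ x, Module R (E x)] [∀ x, AddCommGroup (F x)]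
    [∀ x, Module R (F x)] (e : ∀ x, E x ≃ₗ[R] F x) : DS R E ≃ₗ[R] DS R F where
  toFun f := ⟨fun x => e x (f.1 x), Set.Finite.subset f.2 (by
    intro x hx h0
    apply hx
    show e x (f.1 x) = 0
    rw [h0, map_zero])⟩
  invFun f := ⟨fun x => (e x).symm (f.1 x), Set.Finite.subset f.2 (by
    intro x hx h0
    apply hx
    show (e x).symm (f.1 x) = 0
    rw [h0, map_zero])⟩
  left_inv f := DS_ext (fun x => (e x).symm_apply_apply _)
  right_inv f := DS_ext (fun x => (e x).apply_symm_apply _)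
  map_add' f g := DS_ext (fun x => map_add (e x) _ _)
  map_smul' r f := DS_ext (fun x => map_smul (e x) _ _)

/-- dropping the zero summands. -/
lemma drop_zero {R : Type u} [Ring R] {X : Type u} (E : X → Type u)
    [∀ x, AddCommGroup (E x)] [∀ x, Module R (E x)] :
    Nonempty (DS R E ≃ₗ[R] DS R (fun a : {x | Nontrivial (E x)} => E a)) := by
  have h : cylM R E {x | Nontrivial (E x)} = ⊤ := by
    rw [eq_top_iff]
    intro f _ x hx
    have h1 : ¬ Nontrivial (E x) := hx
    rw [not_nontrivial_iff_subsingleton] at h1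
    exact Subsingleton.elim _ _
  exact ⟨(LinearEquiv.ofTop _ h).symm.trans (cylIsoM R E _)⟩

/-- representatives of the small nonzero modules. -/
lemma exists_familyM (R : Type u) [Ring R] (ρ : Cardinal.{u}) (hρ : ℵ₀ ≤ ρ) (hR : #R ≤ ρ) :
    ∃ (T : Type u) (D : T → Type u) (_ : ∀ t, AddCommGroup (D t)) (_ : ∀ t, Module R (D t)),
      #T ≤ 2 ^ ρ ∧ (∀ t, #(D t) ≤ ρ) ∧ (∀ t, Nontrivial (D t)) ∧
      ∀ (C : Type u) [AddCommGroup C] [Module R C], #C ≤ ρ → Nontrivial C →
        ∃ t, Nonempty (D t ≃ₗ[R] C) := by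
  classical
  obtain ⟨Λ, hΛ⟩ : ∃ Λ : Type u, #Λ = ρ := ⟨ρ.out, Cardinal.mk_out ρ⟩
  have hinf : Infinite Λ := Cardinal.infinite_iff.2 (by rw [hΛ]; exact hρ)
  have hF : #(Λ →₀ R) ≤ ρ := by
    rcases subsingleton_or_nontrivial R with h | h
    · have : Subsingleton (Λ →₀ R) := inferInstance
      exact (Cardinal.le_one_iff_subsingleton.2 this).trans (Cardinal.one_le_aleph0.trans hρ)
    · rw [Cardinal.mk_finsupp_of_infinite, hΛ]
      exact max_le le_rfl hR
  refine ⟨{N : Submodule R (Λ →₀ R) // Nontrivial ((Λ →₀ R) ⧸ N)}, fun N => (Λ →₀ R) ⧸ N.1,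
    fun N => inferInstance, fun N => inferInstance, ?_, ?_, fun N => N.2, ?_⟩
  · refine (Cardinal.mk_subtype_le _).trans ?_
    have h1 : #(Submodule R (Λ →₀ R)) ≤ #(Set (Λ →₀ R)) :=
      Cardinal.mk_le_of_injective (f := fun N => (N : Set (Λ →₀ R))) SetLike.coe_injective
    refine h1.trans ?_
    rw [Cardinal.mk_set]
    exact Cardinal.power_le_power_left two_ne_zero hF
  · intro N
    exact Cardinal.mk_quotient_le.trans hF
  · intro C _ _ hC hC0
    have h1 : #C ≤ #Λ := by rw [hΛ]; exact hC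
    obtain ⟨g⟩ := h1
    have h2 : ∃ φ : Λ → C, Function.Surjective φ := by
      refine ⟨Function.invFun g, Function.invFun_surjective g.injective⟩
    obtain ⟨φ, hφ⟩ := h2
    have h3 : Function.Surjective (Finsupp.linearCombination R φ) := by
      intro x
      obtain ⟨l, rfl⟩ := hφ x
      exact ⟨Finsupp.single l 1, by rw [Finsupp.linearCombination_single, one_smul]⟩
    have e := (Finsupp.linearCombination R φ).quotKerEquivOfSurjective h3
    exact ⟨⟨LinearMap.ker (Finsupp.linearCombination R φ), e.toEquiv.nontrivial⟩, ⟨e⟩⟩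

lemma card_DS {R : Type u} [Ring R] {X : Type u} (E : X → Type u)
    [∀ x, AddCommGroup (E x)] [∀ x, Module R (E x)] {ρ : Cardinal.{u}} (hρ : ℵ₀ ≤ ρ)
    (hE : ∀ x, #(E x) ≤ ρ) (hE0 : ∀ x, Nontrivial (E x)) {κ : Cardinal.{u}} (hκ : ρ < κ) :
    #(DS R E) = κ ↔ #X = κ := by
  classical
  have h1 : #X ≤ #(DS R E) := by
    have h2 : ∀ x, ∃ a : E x, a ≠ 0 := fun x => exists_ne 0
    choose a ha using h2
    refine Cardinal.mk_le_of_injective (f := fun x : X =>
      (⟨fun y => if h : x = y then h ▸ a x else 0, ?_⟩ : DS R E)) ?_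
    · refine Set.Finite.subset (Set.finite_singleton x) ?_
      intro y hy
      by_contra hcon
      apply hy
      show (if h : x = y then h ▸ a x else 0) = 0
      rw [dif_neg]
      intro h
      exact hcon h.symm
    · intro x y hxy
      by_contra hne
      have h3 := congrArg (fun f : DS R E => f.1 x) hxy
      have h4 : (if h : x = x then h ▸ a x else (0 : E x)) =
        (if h : y = x then h ▸ a y else (0 : E x)) := h3
      rw [dif_pos rfl, dif_neg (fun h => hne h.symm)] at h4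
      exact ha x h4
  have h3 : #(DS R E) ≤ max #X ρ :=
    card_DS_le (hρ.trans (le_max_right _ _)) (le_max_left _ _)
      (fun x => (hE x).trans (le_max_right _ _))
  constructor
  · intro h
    rw [h] at h1 h3
    rcases le_max_iff.1 h3 with h4 | h4
    · exact le_antisymm h1 h4
    · exact absurd h4 (not_le.2 hκ)
  · intro h
    rw [h] at h1 h3
    rw [max_eq_left hκ.le] at h3
    exact le_antisymm h3 h1

/-- isomorphism of the direct sums, as a relation on coloured sets. -/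
def simM (R : Type u) [Ring R] {T : Type u} (D : T → Type u)
    [∀ t, AddCommGroup (D t)] [∀ t, Module R (D t)] {χ : Cardinal.{u}} (hχ : ℵ₀ ≤ χ)
    (hD : ∀ t, #(D t) ≤ χ) : Sim T χ where
  Rel := fun X c Y d => Nonempty (DS R (fun x : X => D (c x)) ≃ₗ[R] DS R (fun y : Y => D (d y)))
  iso := fun X Y e c d h => by
    have h1 : c = fun x => d (e x) := by funext x; exact (h x).symm
    subst h1
    exact ⟨reindexM (R := R) (F := fun y => D (d y)) e⟩
  symm := fun X c Y d ⟨f⟩ => ⟨f.symm⟩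
  trans := fun X c Y d Z b ⟨f⟩ ⟨g⟩ => ⟨f.trans g⟩
  sum := fun I X Y c d h => stmtSum R I X Y (fun i x => D (c i x)) (fun i y => D (d i y)) h
  close := fun X c Y d ⟨f⟩ A0 B0 hA hB => by
    obtain ⟨A, B, h1, h2, h3, h4, h5⟩ := stmtClose R χ hχ X Y (fun x => D (c x)) (fun y => D (d y))
      (fun x => hD _) (fun y => hD _) f A0 B0 hA hB
    obtain ⟨h6, h7⟩ := stmtCompl R X Y (fun x => D (c x)) (fun y => D (d y)) f A B h5
    exact ⟨A, B, h1, h2, h3, h4, h6, h7⟩

theorem mainM (R : Type u) [Ring R] (ρ : Cardinal.{u}) (hρ : ℵ₀ ≤ ρ) (K : ModAEC R)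
    (hLS : K.LS ≤ ρ) (κ κ' : Cardinal.{u}) (hκ : 2 ^ ρ < κ) (hκ' : 2 ^ ρ < κ')
    (hK : ∀ (M : Type u) [AddCommGroup M] [Module R M], K.Mem M → #M = κ → SumOfSmall R ρ M)
    (hK' : ∀ (M : Type u) [AddCommGroup M] [Module R M], K.Mem M → #M = κ' → SumOfSmall R ρ M)
    (h : K.Categorical κ) : K.Categorical κ' := by
  classical
  have hls := isLS_LS_mod K
  have hρχ : ρ ≤ 2 ^ ρ := (Cardinal.cantor ρ).le
  have hχ : ℵ₀ ≤ (2 : Cardinal.{u}) ^ ρ := hρ.trans hρχ
  obtain ⟨T, D, inst1, inst2, hT, hD, hD0, hcov⟩ := exists_familyM R ρ hρ (hls.2.1.trans hLS)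
  let C : ColAEC T (2 ^ ρ) := toColM K hls (hLS.trans hρχ) hχ D (fun t => (hD t).trans hρχ)
  let S : Sim T (2 ^ ρ) := simM R D hχ (fun t => (hD t).trans hρχ)
  have hρκ : ρ < κ := lt_of_le_of_lt hρχ hκ
  have hρκ' : ρ < κ' := lt_of_le_of_lt hρχ hκ'
  have hdec : ∀ (M : Type u) [AddCommGroup M] [Module R M], K.Mem M → SumOfSmall R ρ M →
      ∃ (X : Type u) (c : X → T), C.Cl X c ∧ #(DS R (fun x : X => D (c x))) = #M ∧
        Nonempty (DS R (fun x : X => D (c x)) ≃ₗ[R] M) := by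
    intro M _ _ hM hsum
    obtain ⟨X, E, i1, i2, hE, ⟨e⟩⟩ := hsum
    obtain ⟨e1⟩ := exists_directSum_equiv (R := R) E
    obtain ⟨e2⟩ := drop_zero (R := R) E
    have hx : ∀ a : {x | Nontrivial (E x)}, ∃ t, Nonempty (D t ≃ₗ[R] E a) :=
      fun a => hcov (E a) (hE a) a.2
    choose c hc using hx
    have f : DS R (fun a : {x | Nontrivial (E x)} => D (c a)) ≃ₗ[R] M :=
      (mapDS (fun a => (hc a).some)).trans (e2.symm.trans (e1.symm.trans e.symm))
    exact ⟨{x | Nontrivial (E x)}, c, K.mem_iso _ _ f.symm hM, Cardinal.mk_congr f.toEquiv, ⟨f⟩⟩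
  have hex : ∃ (X : Type u) (c : X → T), C.Cl X c ∧ #X = κ := by
    obtain ⟨M, _, _, hM, hMκ⟩ := h.1
    obtain ⟨X, c, h1, h2, _⟩ := hdec M hM (hK M hM hMκ)
    exact ⟨X, c, h1, (card_DS (R := R) (fun x : X => D (c x)) hρ (fun x => hD _) (fun x => hD0 _)
      hρκ).1 (h2.trans hMκ)⟩
  have hu : ∀ (X : Type u) (c : X → T) (Y : Type u) (d : Y → T), C.Cl X c → C.Cl Y d →
      #X = κ → #Y = κ → S.Rel X c Y d := by
    intro X c Y d hX hY hcX hcY
    exact h.2 (DS R (fun x : X => D (c x))) (DS R (fun y : Y => D (d y))) hX hY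
      ((card_DS (R := R) (fun x : X => D (c x)) hρ (fun x => hD _) (fun x => hD0 _) hρκ).2 hcX)
      ((card_DS (R := R) (fun y : Y => D (d y)) hρ (fun x => hD _) (fun x => hD0 _) hρκ).2 hcY)
  obtain ⟨h1, h2⟩ := transferR C S hχ hT hκ hκ' hex hu
  constructor
  · obtain ⟨X, c, h3, h4⟩ := h1
    exact ⟨DS R (fun x : X => D (c x)), inferInstance, inferInstance, h3,
      (card_DS (R := R) (fun x : X => D (c x)) hρ (fun x => hD _) (fun x => hD0 _) hρκ').2 h4⟩
  · intro M N _ _ _ _ hM hN hMκ hNκ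
    obtain ⟨X, c, hX, hcX, ⟨f⟩⟩ := hdec M hM (hK' M hM hMκ)
    obtain ⟨Y, d, hY, hdY, ⟨g⟩⟩ := hdec N hN (hK' N hN hNκ)
    obtain ⟨k⟩ := h2 X c Y d hX hY
      ((card_DS (R := R) (fun x : X => D (c x)) hρ (fun x => hD _) (fun x => hD0 _) hρκ').1
        (hcX.trans hMκ))
      ((card_DS (R := R) (fun y : Y => D (d y)) hρ (fun x => hD _) (fun x => hD0 _) hρκ').1
        (hdY.trans hNκ))
    exact ⟨f.symm.trans (k.trans g)⟩

end Vale.Agent.P307
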