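import Mathlib
import Vale.Agent.P307.Mods.Final
import Vale.Agent.P307.Mods.Defs3
import Vale.Agent.P307.Mods.DefsP

/-!
Downward categoricity transfer for abstract elementary classes of modules closed under direct
powers.
-/

namespace Vale.Agent.P307

open Cardinal Set

universe u

lemma card_pow {N : Type u} [AddCommGroup N] [Nontrivial N] {κ : Cardinal.{u}}
    (hκ : ℵ₀ ≤ κ) (hN : #N ≤ κ) : #(κ.out →₀ N) = κ := by
  have : Infinite κ.out := Cardinal.infinite_iff.2 (by rw [Cardinal.mk_out]; exact hκ)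
  rw [Cardinal.mk_finsupp_of_infinite, Cardinal.mk_out, max_eq_left hN]

theorem down (hW : StmtWalk.{u}) (R : Type u) [Ring R] (ρ : Cardinal.{u}) (K : ModAEC R)
    (hLS : K.LS ≤ ρ) (hpow : K.ClosedPow) (κ κ' : Cardinal.{u}) (hκ' : 2 ^ ρ < κ')
    (hle : κ' ≤ κ) (h : K.Categorical κ) : K.Categorical κ' := by
  classical
  have hls := isLS_LS_mod K
  have hρ : ℵ₀ ≤ ρ := hls.1.trans hLS
  have hR : #R ≤ ρ := hls.2.1.trans hLS
  have hρχ : ρ ≤ 2 ^ ρ := (Cardinal.cantor ρ).le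
  have hκ : 2 ^ ρ < κ := lt_of_lt_of_le hκ' hle
  have hρκ : ρ < κ := lt_of_le_of_lt hρχ hκ
  have hρκ' : ρ < κ' := lt_of_le_of_lt hρχ hκ'
  have nontriv : ∀ (M : Type u) [AddCommGroup M], ρ < #M → Nontrivial M := by
    intro M _ hM
    rw [← Cardinal.one_lt_iff_nontrivial]
    exact lt_of_le_of_lt (Cardinal.one_le_aleph0.trans hρ) hM
  obtain ⟨M0, _, _, hM0, hM0κ⟩ := h.1
  have : Nontrivial M0 := nontriv M0 (by rw [hM0κ]; exact hρκ)
  obtain ⟨a, ha⟩ := exists_ne (0 : M0)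
  obtain ⟨N, hN1, hN2, hN3⟩ := hls.2.2 M0 hM0 {a}
  have hNmem : K.Mem N := (K.mem_of_le _ _ hN2).1
  have hNρ : #N ≤ ρ := by
    refine hN3.trans ?_
    rw [Cardinal.mk_singleton]
    exact (add_le_add (Cardinal.one_le_aleph0.trans hρ) hLS).trans (Cardinal.add_eq_self hρ).le
  have hNn : Nontrivial N := by
    refine ⟨⟨⟨a, hN1 rfl⟩, 0, ?_⟩⟩
    intro h0
    exact ha (congrArg Subtype.val h0)
  have hne : Nonempty κ.out := by
    rw [← Cardinal.mk_ne_zero_iff, Cardinal.mk_out]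
    intro h0
    rw [h0] at hρκ
    exact absurd hρκ (not_lt.2 bot_le)
  have hinf : Infinite κ.out := Cardinal.infinite_iff.2 (by
    rw [Cardinal.mk_out]; exact hρ.trans hρκ.le)
  have hP : K.Mem (κ.out →₀ N) := hpow N hNmem κ.out
  have hPc : #(κ.out →₀ N) = κ := card_pow (hρ.trans hρκ.le) (hNρ.trans hρκ.le)
  refine mainM R ρ hρ K hLS κ κ' hκ hκ' ?_ ?_ h
  · intro M _ _ hM hMκ
    obtain ⟨e⟩ := h.2 M (κ.out →₀ N) hM hP hMκ hPc
    exact ⟨κ.out, fun _ => N, fun _ => inferInstance, fun _ => inferInstance, fun _ => hNρ,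
      ⟨e.trans (finsuppLEquivDirectSum R N κ.out)⟩⟩
  · intro M _ _ hM hMκ'
    have hMn : Nontrivial M := nontriv M (by rw [hMκ']; exact hρκ')
    have hQ : K.Mem (κ.out →₀ M) := hpow M hM κ.out
    have hQc : #(κ.out →₀ M) = κ := card_pow (hρ.trans hρκ.le) (by rw [hMκ']; exact hle)
    obtain ⟨e⟩ := h.2 (κ.out →₀ M) (κ.out →₀ N) hQ hP hQc hPc
    obtain ⟨g⟩ := exists_directSum_equiv (R := R) (fun _ : κ.out => N)
    let e' : (κ.out →₀ M) ≃ₗ[R] DS R (fun _ : κ.out => N) :=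
      e.trans ((finsuppLEquivDirectSum R N κ.out).trans g)
    obtain ⟨x0⟩ := hne
    refine hW R ρ hρ hR κ.out (fun _ => N) (fun _ => hNρ) M
      (e'.toLinearMap.comp (Finsupp.lsingle x0)) ((Finsupp.lapply x0).comp e'.symm.toLinearMap) ?_
    intro m
    simp

end Vale.Agent.P307
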