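import Mathlib
import Vale.Agent.P307.Mods.Down

/-!
An abstract elementary class of modules is determined by its small members; the Hanf number.
-/

namespace Vale.Agent.P307

open Cardinal Set

universe u

/-- the two classes have the same small members and the same relation between them. -/
def Agree {R : Type u} [Ring R] (K K' : ModAEC R) (ρ : Cardinal.{u}) : Prop :=
  ∀ (M : Type u) [AddCommGroup M] [Module R M], #M ≤ ρ → ∀ S : Submodule R M,
    K.Le M S ↔ K'.Le M S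

lemma mem_of_agree (hD : StmtDirU.{u}) {R : Type u} [Ring R] (K K' : ModAEC R) (ρ : Cardinal.{u})
    (hLS : K.LS ≤ ρ) (hA : Agree K K' ρ) (M : Type u) [AddCommGroup M] [Module R M]
    (hM : K.Mem M) : K'.Mem M := by
  have hls := isLS_LS_mod K
  have hρ : ℵ₀ ≤ ρ := hls.1.trans hLS
  have ls : ∀ A : Set M, #A ≤ ρ → ∃ S : Submodule R M, A ⊆ S ∧ K.Le M S ∧ #S ≤ ρ := by
    intro A hA
    obtain ⟨S, h1, h2, h3⟩ := hls.2.2 M hM A
    exact ⟨S, h1, h2, h3.trans ((add_le_add hA hLS).trans (Cardinal.add_eq_self hρ).le)⟩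
  let ι := {S : Submodule R M // K.Le M S ∧ #S ≤ ρ}
  have hne : Nonempty ι := by
    obtain ⟨S, _, h2, h3⟩ := ls ∅ (by rw [Cardinal.mk_emptyCollection]; exact bot_le)
    exact ⟨⟨S, h2, h3⟩⟩
  have h := hD R K' M ι (fun S => S.1) (by
      intro S T
      obtain ⟨U, h1, h2, h3⟩ := ls ((S.1 : Set M) ∪ (T.1 : Set M))
        ((Cardinal.mk_union_le _ _).trans ((add_le_add S.2.2 T.2.2).trans
          (Cardinal.add_eq_self hρ).le))
      exact ⟨⟨U, h2, h3⟩, fun x hx => h1 (Or.inl hx), fun x hx => h1 (Or.inr hx)⟩) (by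
      intro S T hST
      refine ⟨hST, ?_⟩
      rw [← hA T.1 T.2.2]
      exact K.coherence M S.1 T.1 hST S.2.1 T.2.1)
  have htop : (⨆ S : ι, S.1) = ⊤ := by
    rw [eq_top_iff]
    intro x _
    obtain ⟨S, h1, h2, h3⟩ := ls {x} (by
      rw [Cardinal.mk_singleton]; exact Cardinal.one_le_aleph0.trans hρ)
    exact (le_iSup (fun S : ι => S.1) ⟨S, h2, h3⟩) (h1 rfl)
  have h4 := h.1
  rw [htop] at h4
  exact K'.mem_iso _ _ Submodule.topEquiv h4

/-- the small part of an abstract elementary class of modules. -/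
def smallPart {R : Type u} [Ring R] (Λ : Type u) (K : ModAEC R) :
    Set (Σ N : Submodule R (Λ →₀ R), Submodule R ((Λ →₀ R) ⧸ N)) :=
  {p | K.Le ((Λ →₀ R) ⧸ p.1) p.2}

lemma agree_of_smallPart {R : Type u} [Ring R] (K K' : ModAEC R) (Λ : Type u)
    (h : smallPart Λ K = smallPart Λ K') : Agree K K' #Λ := by
  classical
  intro M _ _ hM S
  obtain ⟨g⟩ := hM
  have hφ : Function.Surjective (Function.invFun g) := Function.invFun_surjective g.injective
  have h3 : Function.Surjective (Finsupp.linearCombination R (Function.invFun g)) := by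
    intro x
    obtain ⟨l, rfl⟩ := hφ x
    exact ⟨Finsupp.single l 1, by rw [Finsupp.linearCombination_single, one_smul]⟩
  set N := LinearMap.ker (Finsupp.linearCombination R (Function.invFun g)) with hN
  have e : ((Λ →₀ R) ⧸ N) ≃ₗ[R] M :=
    (Finsupp.linearCombination R (Function.invFun g)).quotKerEquivOfSurjective h3
  have key : ∀ K : ModAEC R, K.Le M S ↔
      (⟨N, S.map (e.symm : M →ₗ[R] ((Λ →₀ R) ⧸ N))⟩ :
        Σ N : Submodule R (Λ →₀ R), Submodule R ((Λ →₀ R) ⧸ N)) ∈ smallPart Λ K := by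
    intro K
    constructor
    · intro h1
      exact K.le_iso M _ e.symm S h1
    · intro h1
      have h2 := K.le_iso _ M e _ h1
      have h4 : (S.map (e.symm : M →ₗ[R] ((Λ →₀ R) ⧸ N))).map
          (e : ((Λ →₀ R) ⧸ N) →ₗ[R] M) = S := by
        rw [← Submodule.map_comp]
        simp
      rwa [h4] at h2
  rw [key K, key K', h]

lemma categorical_congr {R : Type u} [Ring R] (K K' : ModAEC R)
    (h : ∀ (M : Type u) [AddCommGroup M] [Module R M], K.Mem M ↔ K'.Mem M) (κ : Cardinal.{u})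
    (hK : K.Categorical κ) : K'.Categorical κ := by
  constructor
  · obtain ⟨M, _, _, hM, hMκ⟩ := hK.1
    exact ⟨M, inferInstance, inferInstance, (h M).1 hM, hMκ⟩
  · intro M N _ _ _ _ hM hN
    exact hK.2 M N ((h M).2 hM) ((h N).2 hN)

theorem hanf (hW : StmtWalk.{u}) (hD : StmtDirU.{u}) (R : Type u) [Ring R] (ρ : Cardinal.{u}) :
    ∃ μ : Cardinal.{u}, 2 ^ ρ < μ ∧ ∀ K : ModAEC R, K.LS ≤ ρ → K.ClosedPow →
      ∀ κ : Cardinal.{u}, μ ≤ κ → K.Categorical κ →
      ∀ κ' : Cardinal.{u}, 2 ^ ρ < κ' → K.Categorical κ' := by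
  classical
  obtain ⟨Λ, hΛ⟩ : ∃ Λ : Type u, #Λ = ρ := ⟨ρ.out, Cardinal.mk_out ρ⟩
  let P : Set (Σ N : Submodule R (Λ →₀ R), Submodule R ((Λ →₀ R) ⧸ N)) → Cardinal.{u} → Prop :=
    fun i κ => 2 ^ ρ < κ ∧ ∃ K : ModAEC R, K.LS ≤ ρ ∧ K.ClosedPow ∧ smallPart Λ K = i ∧
      ¬ K.Categorical κ
  let b : Set (Σ N : Submodule R (Λ →₀ R), Submodule R ((Λ →₀ R) ⧸ N)) → Cardinal.{u} :=
    fun i => if h : ∃ κ, P i κ then h.choose else 0
  refine ⟨Order.succ (max (2 ^ ρ) (⨆ i, b i)), ?_, ?_⟩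
  · exact Order.lt_succ_of_le (le_max_left _ _)
  · intro K hLS hpow κ hκ hcat κ' hκ'
    by_contra hcon
    have hex : ∃ κ, P (smallPart Λ K) κ := ⟨κ', hκ', K, hLS, hpow, rfl, hcon⟩
    have hb : b (smallPart Λ K) = hex.choose := dif_pos hex
    obtain ⟨h1, K₀, h2, h3, h4, h5⟩ := hex.choose_spec
    rw [← hb] at h1 h5
    apply h5
    have hag : Agree K K₀ ρ := by
      have := agree_of_smallPart K K₀ Λ h4.symm
      rwa [hΛ] at this
    have hag' : Agree K₀ K ρ := fun M _ _ hM S => (hag M hM S).symm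
    refine categorical_congr K K₀ (fun M _ _ => ⟨mem_of_agree hD K K₀ ρ hLS hag M,
      mem_of_agree hD K₀ K ρ h2 hag' M⟩) _ ?_
    refine down hW R ρ K hLS hpow κ _ h1 ?_ hcat
    have h6 : b (smallPart Λ K) ≤ ⨆ i, b i := le_ciSup (Cardinal.bddAbove_range b) _
    exact (h6.trans (le_max_right _ _)).trans ((Order.le_succ _).trans hκ)

end Vale.Agent.P307
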