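import Mathlib
import Vale.Agent.P307.Mods.Defs3

/-!
Chains of submodules of an ambient module (helper3).
-/

namespace Vale.Agent.P307

open Cardinal

universe u

/-- transport of `A ≤_K B` to the traces on `C ≥ B`. -/
theorem rel_trace {R : Type u} [Ring R] (K : ModAEC R) {U : Type u} [AddCommGroup U]
    [Module R U] (A B C : Submodule R U) (hBC : B ≤ C)
    (h : K.Le B (A.comap B.subtype)) :
    K.Le (B.comap C.subtype) ((A.comap C.subtype).comap (B.comap C.subtype).subtype) := by
  have h1 := K.le_iso B (B.comap C.subtype) (Submodule.comapSubtypeEquivOfLe hBC).symm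
    (A.comap B.subtype) h
  have h2 : (A.comap B.subtype).map
      ((Submodule.comapSubtypeEquivOfLe hBC).symm : B →ₗ[R] (B.comap C.subtype)) =
      (A.comap C.subtype).comap (B.comap C.subtype).subtype := by
    ext x
    constructor
    · rintro ⟨y, hy, rfl⟩
      exact hy
    · intro hx
      exact ⟨⟨x.1.1, x.2⟩, hx, rfl⟩
  rw [← h2]
  exact h1

theorem stmtRel : StmtRel.{u} := by
  intro R _ K U _ _ ι _ _ _ V hV hK
  have hdir : Directed (· ≤ ·) V := hV.directed_le
  have hmem : ∀ x, x ∈ (⨆ i, V i) ↔ ∃ i, x ∈ V i := fun x =>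
    Submodule.mem_iSup_of_directed V hdir
  have h1 := K.chain_mem (⨆ i, V i : Submodule R U) ι
    (fun i => (V i).comap (⨆ i, V i).subtype)
    (fun i j hij => Submodule.comap_mono (hV hij))
    (fun x => by
      obtain ⟨i, hi⟩ := (hmem x.1).1 x.2
      exact ⟨i, hi⟩)
    (fun i j hij => rel_trace K (V i) (V j) (⨆ i, V i) (le_iSup V j) (hK i j hij).2)
  refine ⟨h1.1, fun i => ⟨le_iSup V i, h1.2 i⟩, fun W hW => ⟨iSup_le fun i => (hW i).1, ?_⟩⟩
  refine K.chain_le W ι (fun i => (V i).comap W.subtype)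
    (fun i j hij => Submodule.comap_mono (hV hij))
    (fun i j hij => rel_trace K (V i) (V j) W (hW j).1 (hK i j hij).2)
    (fun i => (hW i).2) _ (fun x => ?_)
  exact hmem x.1

end Vale.Agent.P307
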