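import Mathlib
import Vale.Agent.P307.Mods.Basic
import Vale.Agent.P307.Mods.Defs3

/-!
P307, module WALK: direct summands of direct sums of small modules. The filtration argument is
the one of `Kap.lean` (helper4).
-/

namespace Vale.Agent.P307

open Cardinal

universe u

namespace Walk

variable {R : Type u} [Ring R] {X : Type u} {E : X → Type u} [∀ x, AddCommGroup (E x)]
  [∀ x, Module R (E x)] {M : Type u} [AddCommGroup M] [Module R M]

/-- a function supported at one point. -/
noncomputable def sgl (a : X) (e : E a) : DS R E := by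
  classical
  exact ⟨Pi.single a e, Set.Finite.subset (Set.finite_singleton a) (by
    intro y hy
    by_contra hcon
    exact hy (Pi.single_eq_of_ne hcon e))⟩

lemma sgl_same (a : X) (e : E a) : (sgl (R := R) a e).1 a = e := by
  classical
  exact Pi.single_eq_same a e

lemma sgl_ne (a : X) (e : E a) (y : X) (h : y ≠ a) : (sgl (R := R) a e).1 y = 0 := by
  classical
  exact Pi.single_eq_of_ne h e

lemma sgl_mem {A : Set X} {a : X} (ha : a ∈ A) (e : E a) : sgl a e ∈ cylM R E A := by
  intro y hy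
  exact sgl_ne a e y (fun h => hy (by rw [h]; exact ha))

lemma eq_sum (v : DS R E) : v = ∑ a ∈ v.2.toFinset, sgl a (v.1 a) := by
  classical
  apply DS_ext
  intro y
  have h1 : (∑ a ∈ v.2.toFinset, sgl a (v.1 a) : DS R E).1 y =
      ∑ a ∈ v.2.toFinset, (sgl (R := R) a (v.1 a)).1 y := by
    rw [AddSubmonoidClass.coe_finset_sum, Finset.sum_apply]
  rw [h1]
  by_cases hy : y ∈ v.2.toFinset
  · rw [Finset.sum_eq_single y, sgl_same]
    · intro b _ hb
      exact sgl_ne b _ y (Ne.symm hb)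
    · intro h; exact absurd hy h
  · rw [Finset.sum_eq_zero]
    · by_contra hcon
      exact hy (v.2.mem_toFinset.2 hcon)
    · intro b hb
      apply sgl_ne
      rintro rfl
      exact hy hb

/-- a property of submodules checked on singles. -/
lemma map_mem_of_sgl {N : Type u} [AddCommGroup N] [Module R N] (f : DS R E →ₗ[R] N)
    (P : Submodule R N) (A : Set X) (h : ∀ a ∈ A, ∀ e : E a, f (sgl a e) ∈ P) (v : DS R E)
    (hv : v ∈ cylM R E A) : f v ∈ P := by
  rw [eq_sum v, map_sum]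
  refine Submodule.sum_mem _ (fun a ha => h a ?_ _)
  by_contra hcon
  exact (v.2.mem_toFinset.1 ha) (hv a hcon)

/-- one step of the closure. -/
def step (g : DS R E →ₗ[R] DS R E) (x : X) : ℕ → Set X
  | 0 => {x}
  | (n + 1) => {y | ∃ v ∈ (cylM R E (step g x n) : Set (DS R E)), (g v).1 y ≠ 0}

/-- the closure of a point. -/
def cl (g : DS R E →ₗ[R] DS R E) (x : X) : Set X := ⋃ n, step g x n

lemma mem_cl (g : DS R E →ₗ[R] DS R E) (x : X) : x ∈ cl g x := Set.mem_iUnion.2 ⟨0, rfl⟩

lemma cl_closed (g : DS R E →ₗ[R] DS R E) (x a : X) (ha : a ∈ cl g x) (e : E a) :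
    g (sgl a e) ∈ cylM R E (cl g x) := by
  obtain ⟨n, hn⟩ := Set.mem_iUnion.1 ha
  intro y hy
  by_contra hcon
  exact hy (Set.mem_iUnion.2 ⟨n + 1, ⟨sgl a e, sgl_mem hn e, hcon⟩⟩)

lemma card_step (g : DS R E →ₗ[R] DS R E) (ρ : Cardinal.{u}) (hρ : ℵ₀ ≤ ρ) (hE : ∀ x, #(E x) ≤ ρ)
    (x : X) (n : ℕ) : #(step g x n) ≤ ρ := by
  induction n with
  | zero =>
    show #({x} : Set X) ≤ ρ
    rw [Cardinal.mk_singleton]
    exact Cardinal.one_le_aleph0.trans hρ
  | succ n ih =>
    have h1 : #(cylM R E (step g x n)) ≤ ρ := card_cylM_le hρ hE _ ih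
    have h2 : #((fun v => g v) '' (cylM R E (step g x n) : Set (DS R E)) : Set (DS R E)) ≤ ρ :=
      Cardinal.mk_image_le.trans h1
    refine (Cardinal.mk_le_mk_of_subset ?_).trans (card_supp_le (E := E) hρ _ h2)
    rintro y ⟨v, hv, hy⟩
    exact ⟨g v, ⟨v, hv, rfl⟩, hy⟩

lemma card_cl (g : DS R E →ₗ[R] DS R E) (ρ : Cardinal.{u}) (hρ : ℵ₀ ≤ ρ) (hE : ∀ x, #(E x) ≤ ρ)
    (x : X) : #(cl g x) ≤ ρ := by
  have h4 : cl g x = ⋃ n : ULift.{u} ℕ, step g x n.down := by
    ext y
    simp only [cl, Set.mem_iUnion]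
    constructor
    · rintro ⟨n, hn⟩; exact ⟨⟨n⟩, hn⟩
    · rintro ⟨n, hn⟩; exact ⟨n.down, hn⟩
  rw [h4]
  refine Cardinal.mk_iUnion_le_sum_mk.trans ?_
  refine (Cardinal.sum_le_sum _ (fun _ => ρ)
    (fun n : ULift.{u} ℕ => card_step g ρ hρ hE x n.down)).trans ?_
  rw [Cardinal.sum_const']
  refine (mul_le_mul' ?_ le_rfl).trans (Cardinal.mul_eq_self hρ).le
  simpa using hρ

/-- zeroing outside `A`. -/
noncomputable def cut (A : Set X) : DS R E →ₗ[R] DS R E := by
  classical
  exact
    { toFun := fun v => ⟨fun x => if x ∈ A then v.1 x else 0, Set.Finite.subset v.2 (by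
        intro x hx h0
        apply hx
        show (if x ∈ A then v.1 x else 0) = 0
        rw [h0, ite_self])⟩
      map_add' := by
        intro v w
        apply DS_ext
        intro x
        show (if x ∈ A then v.1 x + w.1 x else 0) =
          (if x ∈ A then v.1 x else 0) + (if x ∈ A then w.1 x else 0)
        split_ifs <;> simp
      map_smul' := by
        intro r v
        apply DS_ext
        intro x
        show (if x ∈ A then r • v.1 x else 0) = r • (if x ∈ A then v.1 x else 0)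
        split_ifs <;> simp }

lemma cut_mem (A : Set X) (v : DS R E) : cut A v ∈ cylM R E A := by
  classical
  intro x hx
  show (if x ∈ A then v.1 x else 0) = 0
  rw [if_neg hx]

lemma cut_eq (A : Set X) (v : DS R E) (hv : v ∈ cylM R E A) : cut A v = v := by
  classical
  apply DS_ext
  intro x
  show (if x ∈ A then v.1 x else 0) = v.1 x
  split_ifs with h
  · rfl
  · exact (hv x h).symm

/-- the projection. -/
noncomputable def q (s : M →ₗ[R] DS R E) (f : DS R E →ₗ[R] M) (A : Set X) : M →ₗ[R] M :=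
  (f.comp (cut A)).comp s

lemma q_mem (s : M →ₗ[R] DS R E) (f : DS R E →ₗ[R] M) (A : Set X) (m : M) :
    q s f A m ∈ (cylM R E A).map f := ⟨_, cut_mem A (s m), rfl⟩

lemma q_eq (s : M →ₗ[R] DS R E) (f : DS R E →ₗ[R] M) (hs : ∀ m, f (s m) = m) (A : Set X)
    (hA : ∀ a ∈ A, ∀ e : E a, s (f (sgl a e)) ∈ cylM R E A) (m : M)
    (hm : m ∈ (cylM R E A).map f) : q s f A m = m := by
  obtain ⟨v, hv, rfl⟩ := hm
  have h1 : s (f v) ∈ cylM R E A := map_mem_of_sgl (s.comp f) _ A hA v hv
  show f (cut A (s (f v))) = f v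
  rw [cut_eq A _ h1, hs]

end Walk

theorem stmtWalk : StmtWalk.{u} := by
  intro R _ ρ hρ hR X E _ _ hE M _ _ s f hs
  classical
  let _ : LinearOrder X := IsWellOrder.linearOrder (WellOrderingRel (α := X))
  have _ : WellFoundedLT X := ⟨(WellOrderingRel.isWellOrder (α := X)).wf⟩
  set g := s.comp f with hg
  let Lo : X → Set X := fun x => ⋃ y, ⋃ (_ : y < x), Walk.cl g y
  let K : X → Submodule R M := fun x => (cylM R E (Lo x ∪ Walk.cl g x)).map f
  let D : X → Submodule R M := fun x => K x ⊓ LinearMap.ker (Walk.q s f (Lo x))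
  have hLo : ∀ x, ∀ a ∈ Lo x, ∀ e : E a, s (f (Walk.sgl a e)) ∈ cylM R E (Lo x) := by
    intro x a ha e
    obtain ⟨y, hy⟩ := Set.mem_iUnion.1 ha
    obtain ⟨hyx, hay⟩ := Set.mem_iUnion.1 hy
    exact cylM_mono (fun b hb => Set.mem_iUnion.2 ⟨y, Set.mem_iUnion.2 ⟨hyx, hb⟩⟩)
      (Walk.cl_closed g y a hay e)
  have hsubLo : ∀ x y, y < x → Lo y ∪ Walk.cl g y ⊆ Lo x := by
    intro x y hyx b hb
    rcases hb with hb | hb
    · obtain ⟨z, hz⟩ := Set.mem_iUnion.1 hb
      obtain ⟨hzy, hbz⟩ := Set.mem_iUnion.1 hz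
      exact Set.mem_iUnion.2 ⟨z, Set.mem_iUnion.2 ⟨hzy.trans hyx, hbz⟩⟩
    · exact Set.mem_iUnion.2 ⟨y, Set.mem_iUnion.2 ⟨hyx, hb⟩⟩
  have hspan : ∀ x, K x ≤ ⨆ y, D y := by
    intro x
    induction x using WellFoundedLT.induction with
    | ind x ih =>
      intro m hm
      have h1 : Walk.q s f (Lo x) m ∈ ⨆ y, D y := by
        obtain ⟨v, hv, hvm⟩ := Walk.q_mem s f (Lo x) m
        rw [← hvm]
        refine Walk.map_mem_of_sgl f _ (Lo x) ?_ v hv
        intro a ha e
        obtain ⟨y, hy⟩ := Set.mem_iUnion.1 ha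
        obtain ⟨hyx, hay⟩ := Set.mem_iUnion.1 hy
        exact ih y hyx ⟨_, Walk.sgl_mem (Set.mem_union_right _ hay) e, rfl⟩
      have h4 : m - Walk.q s f (Lo x) m ∈ D x := by
        refine Submodule.mem_inf.2 ⟨?_, ?_⟩
        · refine Submodule.sub_mem _ hm ?_
          exact Submodule.map_mono (cylM_mono Set.subset_union_left) (Walk.q_mem s f (Lo x) m)
        · rw [LinearMap.mem_ker, map_sub,
            Walk.q_eq s f hs (Lo x) (hLo x) _ (Walk.q_mem s f (Lo x) m), sub_self]
      have h5 : m = Walk.q s f (Lo x) m + (m - Walk.q s f (Lo x) m) := by abel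
      rw [h5]
      exact Submodule.add_mem _ h1 (Submodule.mem_iSup_of_mem x h4)
  have htop : (⨆ y, D y) = ⊤ := by
    rw [eq_top_iff]
    intro m _
    rw [← hs m]
    refine Walk.map_mem_of_sgl f _ Set.univ ?_ (s m) (fun x hx => absurd (Set.mem_univ x) hx)
    intro a _ e
    exact hspan a ⟨_, Walk.sgl_mem (Set.mem_union_right _ (Walk.mem_cl g a)) e, rfl⟩
  have hinj : Function.Injective (DirectSum.coeLinearMap D) := by
    rw [← LinearMap.ker_eq_bot, LinearMap.ker_eq_bot']
    intro h hf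
    by_contra hne
    have hsupp : (DFinsupp.support h).Nonempty := by
      rw [Finset.nonempty_iff_ne_empty]
      intro h'
      exact hne (DFinsupp.support_eq_empty.1 h')
    let x := (DFinsupp.support h).max' hsupp
    have hx : x ∈ DFinsupp.support h := Finset.max'_mem _ _
    rw [DirectSum.coeLinearMap_eq_dfinsuppSum] at hf
    have hsum : (h x : M) = - ∑ y ∈ (DFinsupp.support h).erase x, (h y : M) := by
      rw [eq_neg_iff_add_eq_zero, Finset.add_sum_erase _ (fun y => (h y : M)) hx]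
      exact hf
    have hlow : (h x : M) ∈ (cylM R E (Lo x)).map f := by
      rw [hsum]
      refine Submodule.neg_mem _ (Submodule.sum_mem _ (fun y hy => ?_))
      have hyx : y < x := by
        have h1 := Finset.mem_erase.1 hy
        exact lt_of_le_of_ne (Finset.le_max' _ _ h1.2) h1.1
      have h2 : (h y : M) ∈ K y := (Submodule.mem_inf.1 (h y).2).1
      exact Submodule.map_mono (cylM_mono (hsubLo x y hyx)) h2
    have hker : Walk.q s f (Lo x) (h x : M) = 0 := (Submodule.mem_inf.1 (h x).2).2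
    rw [Walk.q_eq s f hs (Lo x) (hLo x) _ hlow] at hker
    exact (DFinsupp.mem_support_iff.1 hx) (Subtype.ext hker)
  have hsurj : Function.Surjective (DirectSum.coeLinearMap D) := by
    rw [← LinearMap.range_eq_top, DirectSum.range_coeLinearMap, htop]
  refine ⟨X, fun x => D x, inferInstance, inferInstance, ?_, ⟨(LinearEquiv.ofBijective
    (DirectSum.coeLinearMap D) ⟨hinj, hsurj⟩).symm⟩⟩
  intro x
  have h1 : ((D x : Submodule R M) : Set M) ⊆
      Set.range (fun c : cylM R E (Walk.cl g x) =>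
        (f c : M) - Walk.q s f (Lo x) (f c : M)) := by
    intro d hd
    obtain ⟨h2, h3⟩ := Submodule.mem_inf.1 hd
    obtain ⟨v, hv, hvd⟩ := h2
    have h5 : Walk.q s f (Lo x) d = 0 := h3
    let c : DS R E := v - Walk.cut (Lo x) v
    have hc : c ∈ cylM R E (Walk.cl g x) := by
      intro y hy
      by_cases hyL : y ∈ Lo x
      · show v.1 y - (if y ∈ Lo x then v.1 y else 0) = 0
        rw [if_pos hyL, sub_self]
      · have h6 : v.1 y = 0 := hv y (by
          rintro (h | h)
          · exact hyL h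
          · exact hy h)
        show v.1 y - (if y ∈ Lo x then v.1 y else 0) = 0
        rw [if_neg hyL, h6, sub_zero]
    have ha : f (Walk.cut (Lo x) v) ∈ (cylM R E (Lo x)).map f := ⟨_, Walk.cut_mem _ _, rfl⟩
    have h7 := Walk.q_eq s f hs (Lo x) (hLo x) _ ha
    refine ⟨⟨c, hc⟩, ?_⟩
    show f c - Walk.q s f (Lo x) (f c) = d
    have h8 : f c = d - f (Walk.cut (Lo x) v) := by
      show f (v - Walk.cut (Lo x) v) = _
      rw [map_sub, hvd]
    rw [h8, map_sub, h5, h7]
    abel
  calc #(D x) ≤ #(Set.range (fun c : cylM R E (Walk.cl g x) =>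
        (f c : M) - Walk.q s f (Lo x) (f c : M))) := mk_le_mk_of_subset h1
    _ ≤ #(cylM R E (Walk.cl g x)) := mk_range_le
    _ ≤ ρ := card_cylM_le hρ hE _ (Walk.card_cl g ρ hρ hE x)

end Vale.Agent.P307
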