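import Mathlib
import Vale.Agent.P307.Mods.Hanf
import Vale.Agent.P307.Mods.Walk
import Vale.Agent.P307.Mods.Rel
import Vale.Agent.P307.Mods.DirU

/-!
Eventual categoricity for abstract elementary classes of modules closed under direct powers.
-/

namespace Vale.Agent.P307

open Cardinal

universe u

theorem closedPow_downward (R : Type u) [Ring R] (ρ : Cardinal.{u}) (K : ModAEC R)
    (hLS : K.LS ≤ ρ) (hpow : K.ClosedPow) (κ κ' : Cardinal.{u}) (hκ' : 2 ^ ρ < κ')
    (hle : κ' ≤ κ) (h : K.Categorical κ) : K.Categorical κ' :=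
  down stmtWalk R ρ K hLS hpow κ κ' hκ' hle h

theorem closedPow_eventual (R : Type u) [Ring R] (ρ : Cardinal.{u}) :
    ∃ μ : Cardinal.{u}, 2 ^ ρ < μ ∧ ∀ K : ModAEC R, K.LS ≤ ρ → K.ClosedPow →
      ∀ κ : Cardinal.{u}, μ ≤ κ → K.Categorical κ →
      ∀ κ' : Cardinal.{u}, 2 ^ ρ < κ' → K.Categorical κ' :=
  hanf stmtWalk (stmtDirU stmtRel) R ρ

end Vale.Agent.P307
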