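import Mathlib
import Vale.Agent.P307.Mods.DefsP

/-!
Binary direct sums.
-/

namespace Vale.Agent.P307

universe u

/-- `K` is closed under direct sums `M ⊕ N` of two members, and `M ≤_K M ⊕ N`. -/
def ModAEC.ClosedSum {R : Type u} [Ring R] (K : ModAEC R) : Prop :=
  ∀ (M N : Type u) [AddCommGroup M] [Module R M] [AddCommGroup N] [Module R N],
    K.Mem M → K.Mem N → K.Mem (M × N) ∧ K.Le (M × N) (LinearMap.range (LinearMap.inl R M N))

end Vale.Agent.P307
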