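import Mathlib
import Vale.Agent.P307.Mods.DefsS
import Vale.Agent.P307.Mods.Rel
import Vale.Agent.P307.Mods.DirU

/-!
Closure under binary direct sums, with strong summands, implies closure under direct powers.
-/

namespace Vale.Agent.P307

open Cardinal Set

universe u

lemma leIn_refl {R : Type u} [Ring R] (K : ModAEC R) {U : Type u} [AddCommGroup U] [Module R U]
    (S : Submodule R U) (h : K.Mem S) : K.LeIn S S := by
  refine ⟨le_rfl, ?_⟩
  rw [Submodule.comap_subtype_self]
  exact K.le_refl _ h

/-- adding one coordinate. -/
lemma exists_add_coord {R : Type u} [Ring R] {I M : Type u} [LinearOrder I] [AddCommGroup M]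
    [Module R M] (i : I) :
    ∃ e : (Finsupp.supported M R (Set.Iio i) × M) ≃ₗ[R] Finsupp.supported M R (Set.Iic i),
      (LinearMap.range (LinearMap.inl R (Finsupp.supported M R (Set.Iio i)) M)).map
        (e : (Finsupp.supported M R (Set.Iio i) × M) →ₗ[R] Finsupp.supported M R (Set.Iic i)) =
      (Finsupp.supported M R (Set.Iio i)).comap (Finsupp.supported M R (Set.Iic i)).subtype := by
  classical
  let f : (Finsupp.supported M R (Set.Iio i) × M) →ₗ[R] (I →₀ M) :=
    (Finsupp.supported M R (Set.Iio i)).subtype.coprod (Finsupp.lsingle i)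
  have hf : ∀ p, f p = (p.1 : I →₀ M) + Finsupp.single i p.2 := fun p => rfl
  have h0 : ∀ v : Finsupp.supported M R (Set.Iio i), (v : I →₀ M) i = 0 := by
    intro v
    exact (Finsupp.mem_supported' R (v : I →₀ M)).1 v.2 i (lt_irrefl i)
  have hinj : Function.Injective f := by
    rintro ⟨v, m⟩ ⟨w, m'⟩ h
    rw [hf, hf] at h
    have h1 := DFunLike.congr_fun h i
    simp only [Finsupp.add_apply, h0, zero_add, Finsupp.single_eq_same] at h1
    subst h1
    have h3 : v = w := Subtype.ext (add_right_cancel h)
    subst h3
    rfl
  have hrange : LinearMap.range f = Finsupp.supported M R (Set.Iic i) := by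
    apply le_antisymm
    · rintro _ ⟨p, rfl⟩
      rw [hf]
      refine Submodule.add_mem _ ?_ ?_
      · exact Finsupp.supported_mono Set.Iio_subset_Iic_self p.1.2
      · exact Finsupp.single_mem_supported R _ (Set.mem_Iic.2 le_rfl)
    · intro u hu
      rw [Finsupp.mem_supported'] at hu
      refine ⟨(⟨u.erase i, ?_⟩, u i), ?_⟩
      · rw [Finsupp.mem_supported']
        intro x hx
        by_cases hxi : x = i
        · subst hxi; exact Finsupp.erase_same
        · rw [Finsupp.erase_ne hxi]
          apply hu
          intro h
          exact hx (lt_of_le_of_ne h hxi)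
      · rw [hf]
        exact Finsupp.erase_add_single i u
  let e := (LinearEquiv.ofInjective f hinj).trans (LinearEquiv.ofEq _ _ hrange)
  have he : ∀ p, ((e p : Finsupp.supported M R (Set.Iic i)) : I →₀ M) = f p := fun p => rfl
  refine ⟨e, ?_⟩
  ext u
  rw [Submodule.mem_map, Submodule.mem_comap]
  constructor
  · rintro ⟨p, ⟨v, rfl⟩, rfl⟩
    show ((e (LinearMap.inl R _ M v) : Finsupp.supported M R (Set.Iic i)) : I →₀ M) ∈ _
    rw [he, hf]
    simp
  · intro hu
    obtain ⟨p, rfl⟩ := e.surjective u
    refine ⟨p, ?_, rfl⟩
    have h1 : ((e p : Finsupp.supported M R (Set.Iic i)) : I →₀ M) i = 0 :=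
      (Finsupp.mem_supported' R _).1 hu i (lt_irrefl i)
    rw [he, hf, Finsupp.add_apply, h0, zero_add, Finsupp.single_eq_same] at h1
    refine ⟨p.1, ?_⟩
    show (p.1, (0 : M)) = p
    rw [← h1]

theorem closedPow_of_closedSum {R : Type u} [Ring R] (K : ModAEC R) (h : K.ClosedSum) :
    K.ClosedPow := by
  classical
  intro M _ _ hM I _
  let _ : LinearOrder I := IsWellOrder.linearOrder (WellOrderingRel (α := I))
  have _ : WellFoundedLT I := ⟨(WellOrderingRel.isWellOrder (α := I)).wf⟩
  have key : ∀ i : I, K.Mem (Finsupp.supported M R (Set.Iic i)) ∧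
      ∀ j < i, K.LeIn (Finsupp.supported M R (Set.Iic j)) (Finsupp.supported M R (Set.Iic i)) := by
    intro i
    induction i using WellFoundedLT.induction with
    | ind i ih =>
      by_cases hi : Nonempty (Set.Iio i)
      · have hrel := stmtRel R K (I →₀ M) (Set.Iio i)
          (fun j => Finsupp.supported M R (Set.Iic (j : I)))
          (fun j k hjk => Finsupp.supported_mono (Set.Iic_subset_Iic.2 hjk))
          (by
            intro j k hjk
            rcases hjk.lt_or_eq with hlt | heq
            · exact (ih k.1 k.2).2 j.1 hlt
            · rw [heq]; exact leIn_refl K _ (ih k.1 k.2).1)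
        have hsup : (⨆ j : Set.Iio i, Finsupp.supported M R (Set.Iic (j : I))) =
            Finsupp.supported M R (Set.Iio i) := by
          apply le_antisymm
          · refine iSup_le (fun j => Finsupp.supported_mono ?_)
            intro x hx
            exact Set.mem_Iio.2 (lt_of_le_of_lt (Set.mem_Iic.1 hx) (Set.mem_Iio.1 j.2))
          · intro u hu
            obtain ⟨j0⟩ := hi
            rcases Finset.eq_empty_or_nonempty u.support with he | hne
            · rw [Finsupp.support_eq_empty] at he
              rw [he]; exact Submodule.zero_mem _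
            · have hmax : u.support.max' hne ∈ Set.Iio i :=
                (Finsupp.mem_supported R u).1 hu (Finset.max'_mem _ hne)
              refine (le_iSup (fun j : Set.Iio i => Finsupp.supported M R (Set.Iic (j : I)))
                ⟨_, hmax⟩) ?_
              rw [Finsupp.mem_supported]
              intro x hx
              exact Finset.le_max' _ _ hx
        rw [hsup] at hrel
        obtain ⟨e, he⟩ := exists_add_coord (R := R) (M := M) i
        obtain ⟨h1, h2⟩ := h _ M hrel.1 hM
        have h3 := K.le_iso _ _ e _ h2
        rw [he] at h3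
        have h4 : K.LeIn (Finsupp.supported M R (Set.Iio i)) (Finsupp.supported M R (Set.Iic i)) :=
          ⟨Finsupp.supported_mono Set.Iio_subset_Iic_self, h3⟩
        exact ⟨K.mem_iso _ _ e h1, fun j hj => DirU.leIn_trans K (hrel.2.1 ⟨j, hj⟩) h4⟩
      · refine ⟨?_, fun j hj => absurd ⟨⟨j, hj⟩⟩ hi⟩
        have hr : LinearMap.range (Finsupp.lsingle (R := R) (M := M) i) =
            Finsupp.supported M R (Set.Iic i) := by
          apply le_antisymm
          · rintro _ ⟨m, rfl⟩
            exact Finsupp.single_mem_supported R _ (Set.mem_Iic.2 le_rfl)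
          · intro u hu
            refine ⟨u i, ?_⟩
            ext x
            by_cases hx : x = i
            · subst hx; simp
            · have h1 : u x = 0 := by
                apply (Finsupp.mem_supported' R u).1 hu
                intro h2
                exact hi ⟨⟨x, lt_of_le_of_ne h2 hx⟩⟩
              rw [h1]
              simp [Finsupp.single_apply, Ne.symm hx]
        exact K.mem_iso _ _ ((LinearEquiv.ofInjective (Finsupp.lsingle (R := R) (M := M) i)
          (Finsupp.single_injective i)).trans (LinearEquiv.ofEq _ _ hr)) hM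
  have hrel := stmtRel R K (I →₀ M) I (fun j => Finsupp.supported M R (Set.Iic j))
    (fun j k hjk => Finsupp.supported_mono (Set.Iic_subset_Iic.2 hjk))
    (by
      intro j k hjk
      rcases hjk.lt_or_eq with hlt | heq
      · exact (key k).2 j hlt
      · rw [heq]; exact leIn_refl K _ (key k).1)
  have htop : (⨆ j : I, Finsupp.supported M R (Set.Iic j)) = ⊤ := by
    rw [eq_top_iff]
    intro u _
    rcases Finset.eq_empty_or_nonempty u.support with he | hne
    · rw [Finsupp.support_eq_empty] at he
      rw [he]; exact Submodule.zero_mem _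
    · refine (le_iSup (fun j : I => Finsupp.supported M R (Set.Iic j)) (u.support.max' hne)) ?_
      rw [Finsupp.mem_supported]
      intro x hx
      exact Finset.le_max' _ _ hx
  have h5 := hrel.1
  rw [htop] at h5
  exact K.mem_iso _ _ Submodule.topEquiv h5

end Vale.Agent.P307
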