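import Mathlib
import Vale.Agent.P307.Mods.Defs

/-!
Two more decomposition theorems.
-/

namespace Vale.Agent.P307

open Cardinal

universe u

/-- over a left Noetherian ring of size at most `ρ`, an injective module is a direct sum of
modules of size at most `ρ`. -/
def StmtInj : Prop :=
  ∀ (R : Type u) [Ring R] [IsNoetherianRing R] (ρ : Cardinal.{u}), ℵ₀ ≤ ρ → #R ≤ ρ →
    ∀ (M : Type u) [AddCommGroup M] [Module R M], Module.Injective R M → SumOfSmall R ρ M

/-- over a principal ideal domain of size at most `ρ`, a module of bounded torsion is a direct sum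
of modules of size at most `ρ` (cyclic modules). -/
def StmtBdd : Prop :=
  ∀ (R : Type u) [CommRing R] [IsDomain R] [IsPrincipalIdealRing R] (ρ : Cardinal.{u}), ℵ₀ ≤ ρ →
    #R ≤ ρ → ∀ (M : Type u) [AddCommGroup M] [Module R M],
    (∃ a : R, a ≠ 0 ∧ ∀ m : M, a • m = 0) → SumOfSmall R ρ M

end Vale.Agent.P307
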