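import Mathlib
import Vale.Agent.P307.Mods.Down

/-!
Transport of an AEC of modules along an isomorphism of rings (statement).
-/

namespace Vale.Agent.P307

open Cardinal

universe u

/-- transport along an isomorphism of rings (restriction of scalars). -/
def StmtTrans : Prop :=
  ∀ (R R' : Type u) [Ring R] [Ring R'] (_ : R ≃+* R') (K : ModAEC R), ∃ K' : ModAEC R',
    (∀ ℓ, K.IsLS ℓ ↔ K'.IsLS ℓ) ∧ (K.ClosedPow → K'.ClosedPow) ∧
    ∀ κ, K.Categorical κ ↔ K'.Categorical κ

end Vale.Agent.P307
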