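import Mathlib
import Vale.Agent.P307.Mods.Defs2

/-!
P307, module INJ: over a left Noetherian ring, an injective module is a direct sum of small
modules.
-/

namespace Vale.Agent.P307

open Cardinal Set

universe u

namespace Inj

variable {R : Type u} [Ring R] {M : Type u} [AddCommGroup M] [Module R M]

/-- `S` satisfies Baer's criterion, inside `M`. -/
def PB (S : Submodule R M) : Prop :=
  ∀ (I : Ideal R) (g : I →ₗ[R] M), (∀ x, g x ∈ S) → ∃ m ∈ S, ∀ x : I, g x = (x : R) • m

lemma PB_top (h : Module.Baer R M) : PB (⊤ : Submodule R M) := by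
  intro I g _
  obtain ⟨g', hg'⟩ := h I g
  refine ⟨g' 1, Submodule.mem_top, fun x => ?_⟩
  rw [← map_smul, smul_eq_mul, mul_one, hg' x.1 x.2]

lemma PB.baer {S : Submodule R M} (h : PB S) : Module.Baer R S := by
  intro I g
  obtain ⟨m, hm, h1⟩ := h I (S.subtype.comp g) (fun x => (g x).2)
  refine ⟨LinearMap.toSpanSingleton R S ⟨m, hm⟩, fun x hx => ?_⟩
  apply Subtype.ext
  exact (h1 ⟨x, hx⟩).symm

lemma mk_span_le (ρ : Cardinal.{u}) (hρ : ℵ₀ ≤ ρ) (hR : #R ≤ ρ) (C : Set M)
    (hCc : #C ≤ ρ) : #(Submodule.span R C) ≤ ρ := by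
  classical
  let g : List (R × C) → M := fun l => (l.map (fun p => p.1 • (p.2 : M))).sum
  have hsub : ((Submodule.span R C : Submodule R M) : Set M) ⊆ Set.range g := by
    intro m hm
    refine Submodule.span_induction (p := fun x _ => x ∈ Set.range g) ?_ ?_ ?_ ?_ hm
    · intro x hx
      exact ⟨[(1, ⟨x, hx⟩)], by simp [g]⟩
    · exact ⟨[], by simp [g]⟩
    · rintro x y _ _ ⟨l1, rfl⟩ ⟨l2, rfl⟩
      exact ⟨l1 ++ l2, by simp [g]⟩
    · rintro r x _ ⟨l, rfl⟩
      refine ⟨l.map (fun p => (r * p.1, p.2)), ?_⟩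
      simp only [g, List.map_map]
      rw [List.smul_sum]
      simp only [List.map_map]
      congr 1
      refine List.map_congr_left (fun p _ => ?_)
      simp [mul_smul]
  calc #(Submodule.span R C) ≤ #(Set.range g) := mk_le_mk_of_subset hsub
    _ ≤ #(List (R × C)) := mk_range_le
    _ ≤ max ℵ₀ #(R × C) := mk_list_le_max _
    _ ≤ ρ := by
        refine max_le hρ ?_
        rw [mk_prod, Cardinal.lift_id, Cardinal.lift_id]
        exact (mul_le_mul' hR hCc).trans (mul_eq_self hρ).le

/-- a chosen solution of a system of equations. -/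
noncomputable def phi (C : Submodule R M) (l : List (R × M)) : M := by
  classical
  exact if h : ∃ m, m ∈ C ∧ ∀ p ∈ l, p.1 • m = p.2 then h.choose else 0

lemma phi_mem (C : Submodule R M) (l : List (R × M)) : phi C l ∈ C := by
  unfold phi
  split_ifs with h
  · exact h.choose_spec.1
  · exact C.zero_mem

lemma phi_spec (C : Submodule R M) (l : List (R × M)) (h : ∃ m, m ∈ C ∧ ∀ p ∈ l, p.1 • m = p.2) :
    ∀ p ∈ l, p.1 • phi C l = p.2 := by
  unfold phi
  rw [dif_pos h]
  exact h.choose_spec.2

/-- one step of the closing off. -/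
noncomputable def nxt (C N : Submodule R M) : Submodule R M :=
  Submodule.span R ((N : Set M) ∪
    Set.range (fun l : List (R × N) => phi C (l.map (fun p => (p.1, (p.2 : M))))))

lemma le_nxt (C N : Submodule R M) : N ≤ nxt C N :=
  fun _ hx => Submodule.subset_span (Or.inl hx)

lemma nxt_le {C N : Submodule R M} (h : N ≤ C) : nxt C N ≤ C := by
  rw [nxt, Submodule.span_le]
  rintro x (hx | ⟨l, rfl⟩)
  · exact h hx
  · exact phi_mem C _

lemma card_nxt (C N : Submodule R M) (ρ : Cardinal.{u}) (hρ : ℵ₀ ≤ ρ) (hR : #R ≤ ρ)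
    (hN : #N ≤ ρ) : #(nxt C N) ≤ ρ := by
  apply mk_span_le ρ hρ hR
  refine (mk_union_le _ _).trans ?_
  refine (add_le_add (hN : #(N : Set M) ≤ ρ) (mk_range_le.trans ?_)).trans (add_eq_self hρ).le
  refine (mk_list_le_max _).trans (max_le hρ ?_)
  rw [mk_prod, Cardinal.lift_id, Cardinal.lift_id]
  exact (mul_le_mul' hR hN).trans (mul_eq_self hρ).le

lemma exists_small [IsNoetherianRing R] (ρ : Cardinal.{u}) (hρ : ℵ₀ ≤ ρ) (hR : #R ≤ ρ)
    (C : Submodule R M) (hC : PB C) (c : M) (hc : c ∈ C) :
    ∃ S : Submodule R M, S ≤ C ∧ c ∈ S ∧ #S ≤ ρ ∧ PB S := by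
  classical
  let N : ℕ → Submodule R M := fun n => (nxt C)^[n] (Submodule.span R {c})
  have hN : ∀ n, N (n + 1) = nxt C (N n) := fun n => Function.iterate_succ_apply' _ n _
  have hmono : Monotone N := by
    apply monotone_nat_of_le_succ
    intro n
    rw [hN]; exact le_nxt C _
  have hle : ∀ n, N n ≤ C := by
    intro n
    induction n with
    | zero =>
      show Submodule.span R {c} ≤ C
      rw [Submodule.span_le]
      rintro x rfl
      exact hc
    | succ n ih => rw [hN]; exact nxt_le ih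
  have hcard : ∀ n, #(N n) ≤ ρ := by
    intro n
    induction n with
    | zero =>
      apply mk_span_le ρ hρ hR
      rw [mk_singleton]
      exact one_le_aleph0.trans hρ
    | succ n ih => rw [hN]; exact card_nxt C _ ρ hρ hR ih
  have hmem : ∀ x, x ∈ (⨆ n, N n) ↔ ∃ n, x ∈ N n :=
    fun x => Submodule.mem_iSup_of_directed N hmono.directed_le
  refine ⟨⨆ n, N n, iSup_le hle, ?_, ?_, ?_⟩
  · rw [hmem]
    exact ⟨0, Submodule.mem_span_singleton_self c⟩
  · have h1 : ((⨆ n, N n : Submodule R M) : Set M) = ⋃ n : ULift.{u} ℕ, (N n.down : Set M) := by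
      ext x
      simp only [Set.mem_iUnion]
      rw [SetLike.mem_coe, hmem]
      constructor
      · rintro ⟨n, hn⟩; exact ⟨⟨n⟩, hn⟩
      · rintro ⟨n, hn⟩; exact ⟨n.down, hn⟩
    have h2 : #((⨆ n, N n : Submodule R M) : Set M) ≤ ρ := by
      rw [h1]
      refine Cardinal.mk_iUnion_le_sum_mk.trans ?_
      refine (Cardinal.sum_le_sum _ (fun _ => ρ) (fun n : ULift.{u} ℕ => hcard n.down)).trans ?_
      rw [Cardinal.sum_const']
      refine (mul_le_mul' ?_ le_rfl).trans (Cardinal.mul_eq_self hρ).le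
      simpa using hρ
    exact h2
  · intro I g hg
    have hfg : (⊤ : Submodule R I).FG := by
      have : IsNoetherian R I := inferInstance
      exact IsNoetherian.noetherian _
    obtain ⟨G, hG⟩ := hfg
    have h1 : ∃ n, ∀ γ ∈ G, g γ ∈ N n := by
      have key : ∀ F : Finset I, ∃ n, ∀ γ ∈ F, g γ ∈ N n := by
        intro F
        induction F using Finset.induction_on with
        | empty => exact ⟨0, fun γ h => absurd h (Finset.notMem_empty γ)⟩
        | insert a s _ ih =>
          obtain ⟨n, hn⟩ := ih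
          obtain ⟨k, hk⟩ := (hmem _).1 (hg a)
          refine ⟨max n k, fun γ h => ?_⟩
          rw [Finset.mem_insert] at h
          rcases h with rfl | h
          · exact hmono (le_max_right n k) hk
          · exact hmono (le_max_left n k) (hn γ h)
      exact key G
    obtain ⟨n, hn⟩ := h1
    let l : List (R × N n) := G.attach.toList.map (fun γ => ((γ.1 : R), ⟨g γ.1, hn γ.1 γ.2⟩))
    have hsol : ∃ m, m ∈ C ∧ ∀ p ∈ l.map (fun p => (p.1, (p.2 : M))), p.1 • m = p.2 := by
      obtain ⟨m, hm, h2⟩ := hC I g (fun x => (iSup_le hle) (hg x))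
      refine ⟨m, hm, ?_⟩
      intro p hp
      simp only [l, List.map_map, List.mem_map] at hp
      obtain ⟨γ, _, rfl⟩ := hp
      exact (h2 γ.1).symm
    refine ⟨phi C (l.map (fun p => (p.1, (p.2 : M)))), ?_, ?_⟩
    · rw [hmem]
      refine ⟨n + 1, ?_⟩
      rw [hN]
      exact Submodule.subset_span (Or.inr ⟨l, rfl⟩)
    · have h3 := phi_spec C _ hsol
      set m' := phi C (l.map (fun p => (p.1, (p.2 : M)))) with hm'
      have h4 : g = (LinearMap.toSpanSingleton R M m').comp I.subtype := by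
        apply LinearMap.ext_on hG
        intro γ hγ
        have h5 : (γ : R) • m' = g γ := by
          apply h3 ((γ : R), g γ)
          simp only [l, List.map_map, List.mem_map]
          exact ⟨⟨γ, hγ⟩, by simp, rfl⟩
        rw [← h5]; rfl
      intro x
      rw [h4]; rfl

lemma PB_sSup [IsNoetherianRing R] (𝒮 : Set (Submodule R M)) (hind : sSupIndep 𝒮)
    (h : ∀ S ∈ 𝒮, PB S) : PB (sSup 𝒮) := by
  classical
  have hp : iSupIndep (fun i : 𝒮 => (i : Submodule R M)) := (sSupIndep_iff 𝒮).1 hind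
  set L := (DFinsupp.lsum ℕ fun i : 𝒮 => (i : Submodule R M).subtype) with hL
  have hinj : Function.Injective L := hp.dfinsupp_lsum_injective
  have hrange : sSup 𝒮 = LinearMap.range L := by
    rw [sSup_eq_iSup']
    exact Submodule.iSup_eq_range_dfinsupp_lsum _
  intro I g hg
  have hg' : ∀ x, g x ∈ LinearMap.range L := fun x => by rw [← hrange]; exact hg x
  let gt : I →ₗ[R] (Π₀ i : 𝒮, (i : Submodule R M)) :=
    (LinearEquiv.ofInjective L hinj).symm.toLinearMap.comp (LinearMap.codRestrict _ g hg')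
  have hgt : ∀ x, L (gt x) = g x := by
    intro x
    have h1 := (LinearEquiv.ofInjective L hinj).apply_symm_apply (LinearMap.codRestrict _ g hg' x)
    exact congrArg Subtype.val h1
  obtain ⟨G, hG⟩ : (⊤ : Submodule R I).FG := by
    have : IsNoetherian R I := inferInstance
    exact IsNoetherian.noetherian _
  let cmp : ∀ i : 𝒮, I →ₗ[R] M := fun i => (i : Submodule R M).subtype.comp
    ((DFinsupp.lapply i).comp gt)
  have hcmp : ∀ i x, cmp i x = ((gt x i : (i : Submodule R M)) : M) := fun i x => rfl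
  have hm : ∀ i : 𝒮, ∃ m : (i : Submodule R M), ∀ x : I, cmp i x = (x : R) • (m : M) := by
    intro i
    obtain ⟨m, hm, h1⟩ := h i.1 i.2 I (cmp i) (fun x => (gt x i).2)
    exact ⟨⟨m, hm⟩, h1⟩
  choose m hm using hm
  let F : Finset 𝒮 := G.biUnion (fun γ => (gt γ).support)
  have hF : ∀ i, i ∉ F → cmp i = 0 := by
    intro i hi
    apply LinearMap.ext_on hG
    intro γ hγ
    have h1 : i ∉ (gt γ).support := fun h2 => hi (Finset.mem_biUnion.2 ⟨γ, hγ, h2⟩)
    rw [DFinsupp.notMem_support_iff] at h1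
    rw [hcmp, h1]; rfl
  let mm : Π₀ i : 𝒮, (i : Submodule R M) := DFinsupp.mk F (fun i => m i.1)
  have h2 : ∀ x : I, gt x = (x : R) • mm := by
    intro x
    apply DFinsupp.ext
    intro i
    rw [DFinsupp.smul_apply]
    by_cases hi : i ∈ F
    · have h3 : mm i = m i := by
        show (DFinsupp.mk F (fun i => m i.1) : Π₀ i : 𝒮, (i : Submodule R M)) i = m i
        rw [DFinsupp.mk_apply, dif_pos hi]
      rw [h3]
      apply Subtype.ext
      rw [← hcmp, hm i x]; rfl
    · have h3 : mm i = 0 := by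
        show (DFinsupp.mk F (fun i => m i.1) : Π₀ i : 𝒮, (i : Submodule R M)) i = 0
        rw [DFinsupp.mk_apply, dif_neg hi]
      rw [h3, smul_zero]
      apply Subtype.ext
      rw [← hcmp, hF i hi]; rfl
  refine ⟨L mm, ?_, fun x => ?_⟩
  · rw [hrange]; exact ⟨mm, rfl⟩
  · rw [← hgt, h2, map_smul]

lemma exists_proj {N : Submodule R M} (h : PB N) : ∃ f : M →ₗ[R] N, ∀ x : N, f x = x := by
  have h1 : Module.Injective R N := h.baer.injective
  obtain ⟨f, hf⟩ := h1.out N.subtype N.injective_subtype LinearMap.id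
  exact ⟨f, hf⟩

lemma PB_ker {N : Submodule R M} (hM : PB (⊤ : Submodule R M)) (f : M →ₗ[R] N)
    (hf : ∀ x : N, f x = x) : PB (LinearMap.ker f) := by
  intro I g hg
  obtain ⟨m, _, h1⟩ := hM I g (fun x => Submodule.mem_top)
  refine ⟨m - (f m : M), ?_, fun x => ?_⟩
  · rw [LinearMap.mem_ker, map_sub, hf, sub_self]
  · have h2 : f (g x) = 0 := hg x
    rw [h1 x, map_smul] at h2
    rw [smul_sub, ← h1 x]
    have h3 : (x : R) • (f m : M) = 0 := by
      have h4 := congrArg (fun y : N => (y : M)) h2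
      exact h4
    rw [h3, sub_zero]

end Inj

theorem stmtInj : StmtInj.{u} := by
  classical
  intro R _ _ ρ hρ hR M _ _ hinj
  have hM : Inj.PB (⊤ : Submodule R M) := Inj.PB_top (Module.Baer.of_injective hinj)
  have zorn := zorn_subset
    (S := {s : Set (Submodule R M) | sSupIndep s ∧ ∀ S ∈ s, #S ≤ ρ ∧ Inj.PB S})
    (fun c hc1 hc2 => ⟨⋃₀ c, ⟨iSupIndep_sUnion_of_directed hc2.directedOn
      (fun s hs => (hc1 hs).1), fun S ⟨s, sc, hS⟩ => (hc1 sc).2 S hS⟩,
      fun _ => Set.subset_sUnion_of_mem⟩)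
  obtain ⟨s, hs⟩ := zorn
  rw [maximal_subset_iff] at hs
  obtain ⟨⟨s_ind, hs2⟩, s_max⟩ := hs
  have hN := Inj.PB_sSup s s_ind (fun S hS => (hs2 S hS).2)
  obtain ⟨f, hf⟩ := Inj.exists_proj hN
  have hC := Inj.PB_ker hM f hf
  have hcompl : IsCompl (sSup s) (LinearMap.ker f) := LinearMap.isCompl_of_proj hf
  have hbot : LinearMap.ker f = ⊥ := by
    rw [Submodule.eq_bot_iff]
    intro c hc
    obtain ⟨A, hA1, hA2, hA3, hA4⟩ := Inj.exists_small ρ hρ hR _ hC c hc
    have a_dis : Disjoint A (sSup s) := (hcompl.disjoint.mono_right hA1).symm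
    have h1 : s = s ∪ {A} := by
      apply s_max
      · refine ⟨fun x hx => ?_, fun x hx => ?_⟩
        · rw [Set.mem_union, Set.mem_singleton_iff] at hx
          obtain rfl | xa := eq_or_ne x A
          · simp only [Set.mem_singleton, Set.insert_sdiff_of_mem, Set.union_singleton]
            exact a_dis.mono_right (sSup_le_sSup Set.sdiff_subset)
          · have h : (s ∪ {A}) \ {x} = s \ {x} ∪ {A} := by
              simp only [Set.union_singleton]
              rw [Set.insert_sdiff_of_notMem]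
              rw [Set.mem_singleton_iff]
              exact Ne.symm xa
            rw [h, sSup_union, sSup_singleton]
            apply
              (s_ind (hx.resolve_right xa)).disjoint_sup_right_of_disjoint_sup_left
                (a_dis.mono_right _).symm
            rw [← sSup_insert, Set.insert_sdiff_singleton,
              Set.insert_eq_of_mem (hx.resolve_right xa)]
        · rw [Set.mem_union, Set.mem_singleton_iff] at hx
          obtain hx | rfl := hx
          · exact hs2 x hx
          · exact ⟨hA3, hA4⟩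
      · exact Set.subset_union_left
    have h2 : A ∈ s := by
      rw [h1]; exact Set.mem_union_right _ (Set.mem_singleton _)
    have h3 : c ∈ sSup s := (le_sSup h2) hA2
    have h4 : c ∈ sSup s ⊓ LinearMap.ker f := ⟨h3, hc⟩
    rw [hcompl.inf_eq_bot] at h4
    exact h4
  have htop : sSup s = ⊤ := by
    have h1 := hcompl.sup_eq_top
    rwa [hbot, sup_bot_eq] at h1
  have hp : iSupIndep (fun i : s => (i : Submodule R M)) := (sSupIndep_iff s).1 s_ind
  have hbij : Function.Bijective (DFinsupp.lsum ℕ fun i : s => (i : Submodule R M).subtype) := by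
    refine ⟨hp.dfinsupp_lsum_injective, ?_⟩
    rw [← LinearMap.range_eq_top, ← Submodule.iSup_eq_range_dfinsupp_lsum, ← sSup_eq_iSup', htop]
  exact ⟨s, fun i => (i : Submodule R M), fun i => inferInstance, fun i => inferInstance,
    fun i => (hs2 i.1 i.2).1, ⟨(LinearEquiv.ofBijective _ hbij).symm⟩⟩

end Vale.Agent.P307
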