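import Vale.Agent.P307.Mods.Defs

/-!
P307, module KAP: Kaplansky's theorem (projective modules are direct sums of small modules).
-/

namespace Vale.Agent.P307

open Cardinal

universe u

namespace Kap

variable {R : Type u} [Ring R] {M : Type u} [AddCommGroup M] [Module R M]

/-- one step of the closure. -/
noncomputable def step (s : M →ₗ[R] (M →₀ R)) (x : M) : ℕ → Set M
  | 0 => {x}
  | (n + 1) => ⋃ a ∈ step s x n, ((s a).support : Set M)

/-- the closure of a point. -/
noncomputable def cl (s : M →ₗ[R] (M →₀ R)) (x : M) : Set M := ⋃ n, step s x n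

theorem step_countable (s : M →ₗ[R] (M →₀ R)) (x : M) (n : ℕ) : (step s x n).Countable := by
  induction n with
  | zero => exact Set.countable_singleton x
  | succ n ih =>
      show (⋃ a ∈ step s x n, ((s a).support : Set M)).Countable
      exact ih.biUnion (fun a _ => (s a).support.countable_toSet)

theorem cl_countable (s : M →ₗ[R] (M →₀ R)) (x : M) : (cl s x).Countable :=
  Set.countable_iUnion (step_countable s x)

theorem mem_cl (s : M →ₗ[R] (M →₀ R)) (x : M) : x ∈ cl s x :=
  Set.mem_iUnion.2 ⟨0, rfl⟩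

theorem cl_closed (s : M →ₗ[R] (M →₀ R)) (x a : M) (ha : a ∈ cl s x) :
    ((s a).support : Set M) ⊆ cl s x := by
  obtain ⟨n, hn⟩ := Set.mem_iUnion.1 ha
  intro b hb
  refine Set.mem_iUnion.2 ⟨n + 1, ?_⟩
  show b ∈ ⋃ a ∈ step s x n, ((s a).support : Set M)
  exact Set.mem_biUnion hn hb

open Classical in
/-- the projection onto the span of `A`. -/
noncomputable def q (s : M →ₗ[R] (M →₀ R)) (A : Set M) : M →ₗ[R] M :=
  (Finsupp.linearCombination R (fun a => if a ∈ A then a else 0)) ∘ₗ s

theorem q_mem (s : M →ₗ[R] (M →₀ R)) (A : Set M) (m : M) : q s A m ∈ Submodule.span R A := by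
  classical
  unfold q
  rw [LinearMap.comp_apply, Finsupp.linearCombination_apply]
  refine Submodule.sum_mem _ (fun a _ => Submodule.smul_mem _ _ ?_)
  split_ifs with h
  · exact Submodule.subset_span h
  · exact Submodule.zero_mem _

theorem q_eq (s : M →ₗ[R] (M →₀ R)) (hs : ∀ m, Finsupp.linearCombination R id (s m) = m)
    (A : Set M) (hA : ∀ a ∈ A, ((s a).support : Set M) ⊆ A) (m : M)
    (hm : m ∈ Submodule.span R A) : q s A m = m := by
  classical
  have h1 : Set.EqOn (q s A) (LinearMap.id : M →ₗ[R] M) A := by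
    intro a ha
    show q s A a = a
    have h2 := hs a
    unfold q
    rw [LinearMap.comp_apply, Finsupp.linearCombination_apply]
    rw [Finsupp.linearCombination_apply] at h2
    conv_rhs => rw [← h2]
    refine Finset.sum_congr rfl (fun b hb => ?_)
    show (s a) b • (if b ∈ A then b else 0) = (s a) b • id b
    rw [if_pos (hA a ha hb)]
    rfl
  exact LinearMap.eqOn_span h1 hm

/-- the span of a countable set is small. -/
theorem mk_span_le (ρ : Cardinal.{u}) (hρ : ℵ₀ ≤ ρ) (hR : #R ≤ ρ) (C : Set M)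
    (hC : C.Countable) : #(Submodule.span R C) ≤ ρ := by
  classical
  let g : List (R × C) → M := fun l => (l.map (fun p => p.1 • (p.2 : M))).sum
  have hsub : ((Submodule.span R C : Submodule R M) : Set M) ⊆ Set.range g := by
    intro m hm
    refine Submodule.span_induction (p := fun x _ => x ∈ Set.range g) ?_ ?_ ?_ ?_ hm
    · intro x hx
      exact ⟨[(1, ⟨x, hx⟩)], by simp [g]⟩
    · exact ⟨[], by simp [g]⟩
    · rintro x y _ _ ⟨l1, rfl⟩ ⟨l2, rfl⟩
      exact ⟨l1 ++ l2, by simp [g]⟩
    · rintro r x _ ⟨l, rfl⟩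
      refine ⟨l.map (fun p => (r * p.1, p.2)), ?_⟩
      simp only [g, List.map_map]
      rw [List.smul_sum]
      simp only [List.map_map]
      congr 1
      refine List.map_congr_left (fun p _ => ?_)
      simp [mul_smul]
  have hCc : #C ≤ ρ := (mk_le_aleph0_iff.2 hC.to_subtype).trans hρ
  calc #(Submodule.span R C) ≤ #(Set.range g) := mk_le_mk_of_subset hsub
    _ ≤ #(List (R × C)) := mk_range_le
    _ ≤ max ℵ₀ #(R × C) := mk_list_le_max _
    _ ≤ ρ := by
        refine max_le hρ ?_
        rw [mk_prod, Cardinal.lift_id, Cardinal.lift_id]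
        exact (mul_le_mul' hR hCc).trans (mul_eq_self hρ).le

end Kap

/-- **KAP**. -/
theorem stmtKap : StmtKap.{u} := by
  intro R _ ρ hρ hR M _ _ hP
  classical
  obtain ⟨s, hs'⟩ := Module.projective_def'.1 hP
  have hs : ∀ m, Finsupp.linearCombination R id (s m) = m := fun m => LinearMap.congr_fun hs' m
  let _ : LinearOrder M := IsWellOrder.linearOrder (WellOrderingRel (α := M))
  have _ : WellFoundedLT M := ⟨(WellOrderingRel.isWellOrder (α := M)).wf⟩
  -- the pieces
  let Lo : M → Set M := fun x => ⋃ y, ⋃ (_ : y < x), Kap.cl s y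
  let K : M → Submodule R M := fun x => Submodule.span R (Lo x ∪ Kap.cl s x)
  let D : M → Submodule R M := fun x => K x ⊓ LinearMap.ker (Kap.q s (Lo x))
  have hLo : ∀ x, ∀ a ∈ Lo x, ((s a).support : Set M) ⊆ Lo x := by
    intro x a ha
    obtain ⟨y, hy⟩ := Set.mem_iUnion.1 ha
    obtain ⟨hyx, hay⟩ := Set.mem_iUnion.1 hy
    exact (Kap.cl_closed s y a hay).trans
      (fun b hb => Set.mem_iUnion.2 ⟨y, Set.mem_iUnion.2 ⟨hyx, hb⟩⟩)
  have hsubLo : ∀ x y, y < x → Lo y ∪ Kap.cl s y ⊆ Lo x := by
    intro x y hyx b hb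
    rcases hb with hb | hb
    · obtain ⟨z, hz⟩ := Set.mem_iUnion.1 hb
      obtain ⟨hzy, hbz⟩ := Set.mem_iUnion.1 hz
      exact Set.mem_iUnion.2 ⟨z, Set.mem_iUnion.2 ⟨hzy.trans hyx, hbz⟩⟩
    · exact Set.mem_iUnion.2 ⟨y, Set.mem_iUnion.2 ⟨hyx, hb⟩⟩
  -- spanning
  have hspan : ∀ x, K x ≤ ⨆ y, D y := by
    intro x
    induction x using WellFoundedLT.induction with
    | ind x ih =>
      intro m hm
      have h1 : Kap.q s (Lo x) m ∈ ⨆ y, D y := by
        have h2 := Kap.q_mem s (Lo x) m
        have h3 : Submodule.span R (Lo x) ≤ ⨆ y, D y := by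
          rw [Submodule.span_le]
          intro b hb
          obtain ⟨y, hy⟩ := Set.mem_iUnion.1 hb
          obtain ⟨hyx, hby⟩ := Set.mem_iUnion.1 hy
          exact ih y hyx (Submodule.subset_span (Or.inr hby))
        exact h3 h2
      have h4 : m - Kap.q s (Lo x) m ∈ D x := by
        refine Submodule.mem_inf.2 ⟨?_, ?_⟩
        · refine Submodule.sub_mem _ hm ?_
          exact Submodule.span_mono Set.subset_union_left (Kap.q_mem s (Lo x) m)
        · rw [LinearMap.mem_ker, map_sub,
            Kap.q_eq s hs (Lo x) (hLo x) _ (Kap.q_mem s (Lo x) m), sub_self]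
      have h5 : m = Kap.q s (Lo x) m + (m - Kap.q s (Lo x) m) := by abel
      rw [h5]
      exact Submodule.add_mem _ h1 (Submodule.mem_iSup_of_mem x h4)
  have htop : (⨆ y, D y) = ⊤ := by
    rw [eq_top_iff]
    intro m _
    exact hspan m (Submodule.subset_span (Or.inr (Kap.mem_cl s m)))
  -- independence
  have hinj : Function.Injective (DirectSum.coeLinearMap D) := by
    rw [← LinearMap.ker_eq_bot, LinearMap.ker_eq_bot']
    intro f hf
    by_contra hne
    have hsupp : (DFinsupp.support f).Nonempty := by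
      rw [Finset.nonempty_iff_ne_empty]
      intro h
      exact hne (DFinsupp.support_eq_empty.1 h)
    let x := (DFinsupp.support f).max' hsupp
    have hx : x ∈ DFinsupp.support f := Finset.max'_mem _ _
    rw [DirectSum.coeLinearMap_eq_dfinsuppSum] at hf
    have hsum : (f x : M) = - ∑ y ∈ (DFinsupp.support f).erase x, (f y : M) := by
      rw [eq_neg_iff_add_eq_zero, Finset.add_sum_erase _ (fun y => (f y : M)) hx]
      exact hf
    have hlow : (f x : M) ∈ Submodule.span R (Lo x) := by
      rw [hsum]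
      refine Submodule.neg_mem _ (Submodule.sum_mem _ (fun y hy => ?_))
      have hyx : y < x := by
        have h1 := Finset.mem_erase.1 hy
        exact lt_of_le_of_ne (Finset.le_max' _ _ h1.2) h1.1
      have h2 : (f y : M) ∈ K y := (Submodule.mem_inf.1 (f y).2).1
      exact Submodule.span_mono (hsubLo x y hyx) h2
    have hker : Kap.q s (Lo x) (f x : M) = 0 := (Submodule.mem_inf.1 (f x).2).2
    rw [Kap.q_eq s hs (Lo x) (hLo x) _ hlow] at hker
    exact (DFinsupp.mem_support_iff.1 hx) (Subtype.ext hker)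
  have hsurj : Function.Surjective (DirectSum.coeLinearMap D) := by
    rw [← LinearMap.range_eq_top, DirectSum.range_coeLinearMap, htop]
  refine ⟨M, fun x => D x, inferInstance, inferInstance, ?_, ⟨(LinearEquiv.ofBijective
    (DirectSum.coeLinearMap D) ⟨hinj, hsurj⟩).symm⟩⟩
  intro x
  -- size
  have h1 : ((D x : Submodule R M) : Set M) ⊆
      Set.range (fun c : Submodule.span R (Kap.cl s x) => (c : M) - Kap.q s (Lo x) (c : M)) := by
    intro d hd
    obtain ⟨h2, h3⟩ := Submodule.mem_inf.1 hd
    have h2' : d ∈ Submodule.span R (Lo x) ⊔ Submodule.span R (Kap.cl s x) := by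
      rw [← Submodule.span_union]; exact h2
    obtain ⟨a, ha, c, hc, hac⟩ := Submodule.mem_sup.1 h2'
    refine ⟨⟨c, hc⟩, ?_⟩
    have h4 : Kap.q s (Lo x) a = a := Kap.q_eq s hs (Lo x) (hLo x) a ha
    have h5 : Kap.q s (Lo x) d = 0 := h3
    rw [← hac, map_add, h4] at h5
    show c - Kap.q s (Lo x) c = d
    rw [← hac]
    have h6 : Kap.q s (Lo x) c = -a := by
      rw [eq_neg_iff_add_eq_zero, add_comm]; exact h5
    rw [h6]; abel
  calc #(D x) ≤ #(Set.range (fun c : Submodule.span R (Kap.cl s x) =>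
        (c : M) - Kap.q s (Lo x) (c : M))) := mk_le_mk_of_subset h1
    _ ≤ #(Submodule.span R (Kap.cl s x)) := mk_range_le
    _ ≤ ρ := Kap.mk_span_le ρ hρ hR _ (Kap.cl_countable s x)

end Vale.Agent.P307
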