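import Vale.Agent.P307.Mods.Defs

/-! # P307: semisimple modules are direct sums of small modules (helper5) -/

namespace Vale.Agent.P307

open Cardinal

universe u

theorem stmtSemi : StmtSemi.{u} := by
  classical
  intro R _ ρ _ hR M _ _ hM
  obtain ⟨s, e, hs⟩ := IsSemisimpleModule.exists_linearEquiv_dfinsupp R M
  refine ⟨s, fun m => m.1, fun m => inferInstance, fun m => inferInstance, ?_, ⟨e⟩⟩
  intro m
  have hm := hs.2 m
  obtain ⟨x, hx⟩ := @exists_ne m.1 (IsSimpleModule.nontrivial R m.1) 0
  have hsur : Function.Surjective (LinearMap.toSpanSingleton R m.1 x) :=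
    IsSimpleModule.toSpanSingleton_surjective R hx
  exact (mk_le_of_surjective hsur).trans hR

end Vale.Agent.P307
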