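import Mathlib
import Vale.Agent.P307.Mods.Defs4

/-!
Transport of an AEC of modules along an isomorphism of rings (helper3).
-/

namespace Vale.Agent.P307

open Cardinal

universe u

namespace Trans

section

variable {R R' : Type u} [Ring R] [Ring R']

/-- restriction of scalars along `e`. -/
def Res (_e : R ≃+* R') (M : Type u) : Type u := M

variable (e : R ≃+* R')

instance (M : Type u) [AddCommGroup M] : AddCommGroup (Res e M) :=
  inferInstanceAs (AddCommGroup M)

instance (M : Type u) [AddCommGroup M] [Module R' M] : Module R (Res e M) :=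
  Module.compHom M (e : R →+* R')

variable {M N : Type u} [AddCommGroup M] [Module R' M] [AddCommGroup N] [Module R' N]

/-- the same submodule over `R`. -/
def rs (S : Submodule R' M) : Submodule R (Res e M) where
  carrier := {x : Res e M | (show M from x) ∈ S}
  add_mem' := fun {a b} ha hb => S.add_mem (x := (show M from a)) (y := (show M from b)) ha hb
  zero_mem' := S.zero_mem
  smul_mem' := fun r x hx => S.smul_mem (x := (show M from x)) (e r) hx

/-- the same submodule over `R'`. -/
def ls (S : Submodule R (Res e M)) : Submodule R' M where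
  carrier := {x : M | (show Res e M from x) ∈ S}
  add_mem' := fun {a b} ha hb =>
    S.add_mem (x := (show Res e M from a)) (y := (show Res e M from b)) ha hb
  zero_mem' := S.zero_mem
  smul_mem' := fun r x hx => by
    have h := S.smul_mem (x := (show Res e M from x)) (e.symm r) hx
    have h2 : (e.symm r • (show Res e M from x) : Res e M) = (show Res e M from r • x) := by
      change (e (e.symm r)) • x = r • x
      rw [e.apply_symm_apply]
    rw [h2] at h
    exact h

theorem rs_ls (S : Submodule R (Res e M)) : rs e (ls e S) = S := by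
  ext x
  exact Iff.rfl

/-- a linear equivalence over `R'` is one over `R`. -/
def resEquiv (f : M ≃ₗ[R'] N) : Res e M ≃ₗ[R] Res e N where
  toFun := fun x => f (show M from x)
  invFun := fun x => f.symm (show N from x)
  left_inv := fun x => f.symm_apply_apply (show M from x)
  right_inv := fun x => f.apply_symm_apply (show N from x)
  map_add' := fun x y => f.map_add (show M from x) (show M from y)
  map_smul' := fun r x => f.map_smul (e r) (show M from x)

/-- a linear equivalence over `R` is one over `R'`. -/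
def unresEquiv (f : Res e M ≃ₗ[R] Res e N) : M ≃ₗ[R'] N where
  toFun := fun x => f (show Res e M from x)
  invFun := fun x => f.symm (show Res e N from x)
  left_inv := fun x => f.symm_apply_apply (show Res e M from x)
  right_inv := fun x => f.apply_symm_apply (show Res e N from x)
  map_add' := fun x y => f.map_add (show Res e M from x) (show Res e M from y)
  map_smul' := fun r x => by
    have h1 : (show Res e M from r • x) = (e.symm r • (show Res e M from x) : Res e M) := by
      change r • x = (e (e.symm r)) • x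
      rw [e.apply_symm_apply]
    have h2 := f.map_smul (e.symm r) (show Res e M from x)
    rw [← h1] at h2
    refine h2.trans ?_
    change (e (e.symm r)) • (show N from f (show Res e M from x)) = _
    rw [e.apply_symm_apply]
    rfl

/-- submodules as modules. -/
def isoSub (S : Submodule R' M) : Res e S ≃ₗ[R] (rs e S) where
  toFun := fun x => ⟨(show S from x).1, (show S from x).2⟩
  invFun := fun x => (show S from ⟨x.1, x.2⟩)
  left_inv := fun _ => rfl
  right_inv := fun _ => rfl
  map_add' := fun _ _ => rfl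
  map_smul' := fun _ _ => rfl

theorem subA (K : ModAEC R) (S T : Submodule R' M)
    (h : K.Le (Res e T) (rs e (S.comap T.subtype))) :
    K.Le (rs e T) ((rs e S).comap (rs e T).subtype) := by
  have h1 := K.le_iso _ _ (isoSub e T) _ h
  have h2 : (rs e (S.comap T.subtype)).map ((isoSub e T : Res e T ≃ₗ[R] (rs e T)) :
      Res e T →ₗ[R] (rs e T)) = (rs e S).comap (rs e T).subtype := by
    ext x
    constructor
    · rintro ⟨y, hy, rfl⟩
      exact hy
    · intro hx
      exact ⟨(isoSub e T).symm x, hx, rfl⟩
  rw [← h2]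
  exact h1

theorem subB (K : ModAEC R) (S T : Submodule R' M)
    (h : K.Le (rs e T) ((rs e S).comap (rs e T).subtype)) :
    K.Le (Res e T) (rs e (S.comap T.subtype)) := by
  have h1 := K.le_iso _ _ (isoSub e T).symm _ h
  have h2 : ((rs e S).comap (rs e T).subtype).map
      (((isoSub e T).symm : (rs e T) ≃ₗ[R] Res e T) : (rs e T) →ₗ[R] Res e T) =
      rs e (S.comap T.subtype) := by
    ext x
    constructor
    · rintro ⟨y, hy, rfl⟩
      exact hy
    · intro hx
      exact ⟨isoSub e T x, hx, rfl⟩
  rw [← h2]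
  exact h1

theorem exLS (K : ModAEC R) (ℓ : Cardinal.{u}) (h : K.IsLS ℓ) (P : Type u) [AddCommGroup P]
    [Module R' P] (hP : K.Mem (Res e P)) (A : Set P) :
    ∃ S : Submodule R' P, A ⊆ S ∧ K.Le (Res e P) (rs e S) ∧ #S ≤ #A + ℓ := by
  obtain ⟨S, hS1, hS2, hS3⟩ := h.2.2 (Res e P) hP A
  refine ⟨ls e S, hS1, ?_, hS3⟩
  rw [rs_ls]
  exact hS2

end

section

variable {R R' : Type u} [Ring R] [Ring R'] (e : R ≃+* R')

/-- the transported class. -/
def tr (K : ModAEC R) : ModAEC R' where
  Mem := fun M _ _ => K.Mem (Res e M)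
  Le := fun N _ _ S => K.Le (Res e N) (rs e S)
  mem_of_le := fun N _ _ S h => by
    have h1 := K.mem_of_le _ _ h
    exact ⟨K.mem_iso _ _ (isoSub e S).symm h1.1, h1.2⟩
  mem_iso := fun M N _ _ _ _ f h => K.mem_iso _ _ (resEquiv e f) h
  le_iso := fun M N _ _ _ _ f S h => by
    have h1 := K.le_iso _ _ (resEquiv e f) _ h
    have h2 : (rs e S).map ((resEquiv e f : Res e M ≃ₗ[R] Res e N) : Res e M →ₗ[R] Res e N) =
        rs e (S.map (f : M →ₗ[R'] N)) := by
      ext x
      constructor
      · rintro ⟨y, hy, rfl⟩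
        exact ⟨y, hy, rfl⟩
      · rintro ⟨y, hy, rfl⟩
        exact ⟨y, hy, rfl⟩
    rw [← h2]
    exact h1
  le_refl := fun N _ _ h => by
    have h1 := K.le_refl _ h
    have h2 : rs e (⊤ : Submodule R' N) = ⊤ := by
      ext x
      exact ⟨fun _ => trivial, fun _ => trivial⟩
    rw [h2]
    exact h1
  le_trans := fun N _ _ S T h1 h2 => by
    have h3 := K.le_iso _ _ (isoSub e S) _ h2
    have h4 := K.le_trans _ _ _ h1 h3
    have h5 : ((rs e T).map ((isoSub e S : Res e S ≃ₗ[R] (rs e S)) :
        Res e S →ₗ[R] (rs e S))).map (rs e S).subtype = rs e (T.map S.subtype) := by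
      ext x
      constructor
      · rintro ⟨y, ⟨z, hz, rfl⟩, rfl⟩
        exact ⟨z, hz, rfl⟩
      · rintro ⟨z, hz, rfl⟩
        exact ⟨isoSub e S z, ⟨z, hz, rfl⟩, rfl⟩
    rw [← h5]
    exact h4
  coherence := fun N _ _ S T hST h1 h2 => subB e K S T (K.coherence _ _ _ hST h1 h2)
  chain_mem := fun U _ _ ι _ _ _ S hS hU h => by
    exact K.chain_mem (Res e U) ι (fun i => rs e (S i)) (fun i j hij => hS hij) hU
      (fun i j hij => subA e K (S i) (S j) (h i j hij))
  chain_le := fun N _ _ ι _ _ _ S hS h hN T hT => by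
    exact K.chain_le (Res e N) ι (fun i => rs e (S i)) (fun i j hij => hS hij)
      (fun i j hij => subA e K (S i) (S j) (h i j hij)) hN (rs e T) hT
  exists_ls := by
    obtain ⟨ℓ, h1, h2, h3⟩ := K.exists_ls
    refine ⟨ℓ, h1, ?_, fun M _ _ hM A => exLS e K ℓ ⟨h1, h2, h3⟩ M hM A⟩
    rw [← Cardinal.mk_congr e.toEquiv]
    exact h2

/-- restricting twice gives the original module. -/
def iso2 (M : Type u) [AddCommGroup M] [Module R M] : M ≃ₗ[R] Res e (Res e.symm M) where
  toFun := fun x => x
  invFun := fun x => x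
  left_inv := fun _ => rfl
  right_inv := fun _ => rfl
  map_add' := fun _ _ => rfl
  map_smul' := fun r x => by
    change r • x = (e.symm (e r)) • x
    rw [e.symm_apply_apply]

theorem tr_mem (K : ModAEC R) (M : Type u) [AddCommGroup M] [Module R M] (h : K.Mem M) :
    (tr e K).Mem (Res e.symm M) := K.mem_iso _ _ (iso2 e M) h

theorem isLS_iff (K : ModAEC R) (ℓ : Cardinal.{u}) : K.IsLS ℓ ↔ (tr e K).IsLS ℓ := by
  constructor
  · intro h
    refine ⟨h.1, ?_, fun M _ _ hM A => exLS e K ℓ h M hM A⟩
    rw [← Cardinal.mk_congr e.toEquiv]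
    exact h.2.1
  · intro h
    refine ⟨h.1, ?_, fun M _ _ hM A => ?_⟩
    · rw [Cardinal.mk_congr e.toEquiv]
      exact h.2.1
    · obtain ⟨S, hS1, hS2, hS3⟩ := h.2.2 (Res e.symm M) (tr_mem e K M hM) A
      have h1 := K.le_iso _ _ (iso2 e M).symm _ hS2
      refine ⟨_, ?_, h1, ?_⟩
      · intro x hx
        exact ⟨x, hS1 hx, rfl⟩
      · refine le_trans ?_ hS3
        refine Cardinal.mk_le_of_injective (f := fun x => ⟨x.1, ?_⟩) ?_
        · obtain ⟨y, hy, hyx⟩ := x.2
          rw [← hyx]
          exact hy
        · intro x y hxy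
          have h4 := congrArg (fun z => z.1) hxy
          exact Subtype.ext h4

theorem closedPow (K : ModAEC R) (h : K.ClosedPow) : (tr e K).ClosedPow := by
  intro M _ _ hM I _
  have h1 := h (Res e M) hM I
  refine K.mem_iso _ _ ?_ h1
  exact
    { toFun := fun x => x
      invFun := fun x => x
      left_inv := fun _ => rfl
      right_inv := fun _ => rfl
      map_add' := fun _ _ => rfl
      map_smul' := fun r x => by
        show (_ : I →₀ M) = _
        exact Finsupp.ext (fun i => rfl) }

theorem cat_iff (K : ModAEC R) (κ : Cardinal.{u}) :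
    K.Categorical κ ↔ (tr e K).Categorical κ := by
  constructor
  · rintro ⟨⟨M, i1, i2, hM, hκ⟩, h⟩
    refine ⟨⟨Res e.symm M, inferInstance, inferInstance, tr_mem e K M hM, hκ⟩, ?_⟩
    intro A B _ _ _ _ hA hB hA1 hB1
    obtain ⟨f⟩ := h (Res e A) (Res e B) hA hB hA1 hB1
    exact ⟨unresEquiv e f⟩
  · rintro ⟨⟨M, i1, i2, hM, hκ⟩, h⟩
    refine ⟨⟨Res e M, inferInstance, inferInstance, hM, hκ⟩, ?_⟩
    intro A B _ _ _ _ hA hB hA1 hB1
    obtain ⟨f⟩ := h (Res e.symm A) (Res e.symm B) (tr_mem e K A hA) (tr_mem e K B hB) hA1 hB1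
    exact ⟨((iso2 e A).trans (resEquiv e f)).trans (iso2 e B).symm⟩

end

end Trans

theorem stmtTrans : StmtTrans.{u} := by
  intro R R' _ _ e K
  exact ⟨Trans.tr e K, Trans.isLS_iff e K, Trans.closedPow e K, Trans.cat_iff e K⟩

end Vale.Agent.P307
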