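import Mathlib
import Vale.Agent.P307.Mods.Closed
import Vale.Agent.P307.Mods.Trans

/-!
Eventual categoricity for abstract elementary classes of modules closed under direct powers,
uniformly over all rings.
-/

namespace Vale.Agent.P307

open Cardinal

universe u

theorem closedPow_uniform (ρ : Cardinal.{u}) :
    ∃ μ : Cardinal.{u}, 2 ^ ρ < μ ∧ ∀ (R : Type u) [Ring R] (K : ModAEC R), K.LS ≤ ρ →
      K.ClosedPow → ∀ κ : Cardinal.{u}, μ ≤ κ → K.Categorical κ →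
      ∀ κ' : Cardinal.{u}, 2 ^ ρ < κ' → K.Categorical κ' := by
  classical
  obtain ⟨Λ, hΛ⟩ : ∃ Λ : Type u, #Λ = ρ := ⟨ρ.out, Cardinal.mk_out ρ⟩
  have hp : ∀ p : (Σ S : Set Λ, Ring S), ∃ μ : Cardinal.{u}, 2 ^ ρ < μ ∧
      ∀ K : @ModAEC p.1 p.2, @ModAEC.LS p.1 p.2 K ≤ ρ → @ModAEC.ClosedPow p.1 p.2 K →
      ∀ κ : Cardinal.{u}, μ ≤ κ → @ModAEC.Categorical p.1 p.2 K κ →
      ∀ κ' : Cardinal.{u}, 2 ^ ρ < κ' → @ModAEC.Categorical p.1 p.2 K κ' := by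
    intro p
    exact @closedPow_eventual p.1 p.2 ρ
  choose m hm1 hm2 using hp
  refine ⟨Order.succ (max (2 ^ ρ) (⨆ p, m p)), ?_, ?_⟩
  · exact Order.lt_succ_of_le (le_max_left _ _)
  · intro R _ K hLS hpow κ hκ hcat κ' hκ'
    have hR : #R ≤ #Λ := by rw [hΛ]; exact (isLS_LS_mod K).2.1.trans hLS
    obtain ⟨g⟩ := hR
    let e0 : R ≃ Set.range g := Equiv.ofInjective g g.injective
    let ring : Ring (Set.range g) := Equiv.ring e0.symm
    let e : R ≃+* Set.range g := (Equiv.ringEquiv e0.symm).symm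
    obtain ⟨K', h1, h2, h3⟩ := stmtTrans R (Set.range g) e K
    have hLS' : K'.LS ≤ ρ := by
      have h4 : K.LS ∈ {ℓ | K'.IsLS ℓ} := (h1 _).1 (isLS_LS_mod K)
      have h5 : K'.LS ≤ K.LS := csInf_le' h4
      exact h5.trans hLS
    rw [h3]
    refine hm2 ⟨Set.range g, ring⟩ K' hLS' (h2 hpow) κ ?_ ((h3 κ).1 hcat) κ' hκ'
    have h6 : m ⟨Set.range g, ring⟩ ≤ ⨆ p, m p := le_ciSup (Cardinal.bddAbove_range m) _
    exact (h6.trans (le_max_right _ _)).trans ((Order.le_succ _).trans hκ)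

end Vale.Agent.P307
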